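import Mathlib

namespace Vale.Agent.P308.IndepTwo

open Finset

variable {V : Type*} [DecidableEq V]

/-- a matching of `G` coded as an involution: `f v` is the partner of `v`, or `v` itself if uncovered -/
def IsMatch (G : SimpleGraph V) (f : V → V) : Prop :=
  (∀ v, f (f v) = v) ∧ ∀ v, f v ≠ v → G.Adj v (f v)

def dec0 (g : V → V) (u v : V) : V → V :=
  fun z => if z = u then u else if z = v then v else g z

def dec1 (g : V → V) (u v : V) : V → V :=
  fun z => if z = u then u else if z = v then v else if z = g u then g v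
    else if z = g v then g u else g z

def dec2 (g : V → V) (u v a : V) : V → V :=
  fun z => if z = u then u else if z = v then v else if z = a then g u else if z = g u then a
    else if z = g a then g v else if z = g v then g a else g z

theorem case1 {G : SimpleGraph V} {f : V → V} (hf : IsMatch G f) {u v : V} (huv : u ≠ v)
    (hfix : ∀ z, f z = z ↔ (z = u ∨ z = v)) (hadj : G.Adj u v) :
    ∃ g : V → V, IsMatch G g ∧ (∀ z, g z ≠ z) ∧ dec0 g u v = f := by
  obtain ⟨h1, h2⟩ := hf
  have hu : f u = u := (hfix u).2 (Or.inl rfl)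
  have hv : f v = v := (hfix v).2 (Or.inr rfl)
  refine ⟨fun z => if z = u then v else if z = v then u else f z, ⟨?_, ?_⟩, ?_, ?_⟩
  · intro z
    have e1 : f z = u → z = u := fun h => by rw [← h1 z, h, hu]
    have e2 : f z = v → z = v := fun h => by rw [← h1 z, h, hv]
    grind
  · intro z hz
    have := h2 z
    have := hadj.symm
    grind
  · intro z
    have := hfix z
    grind
  · funext z
    unfold dec0
    grind


theorem case2 {G : SimpleGraph V} {f : V → V} (hf : IsMatch G f) {u v : V} (huv : u ≠ v)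
    (hfix : ∀ z, f z = z ↔ (z = u ∨ z = v)) {x : V} (hux : G.Adj u x) (hvy : G.Adj v (f x)) :
    ∃ g : V → V, IsMatch G g ∧ (∀ z, g z ≠ z) ∧ dec1 g u v = f := by
  obtain ⟨h1, h2⟩ := hf
  have hu : f u = u := (hfix u).2 (Or.inl rfl)
  have hv : f v = v := (hfix v).2 (Or.inr rfl)
  have hxu : x ≠ u := hux.ne'
  have hxv : x ≠ v := by
    intro h
    rw [h, hv] at hvy
    exact G.irrefl hvy
  have hyx : f x ≠ x := fun h => by
    rcases (hfix x).1 h with h | h
    · exact hxu h
    · exact hxv h
  have hyu : f x ≠ u := fun h => hxu (by rw [← h1 x, h, hu])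
  have hyv : f x ≠ v := fun h => hxv (by rw [← h1 x, h, hv])
  have hxx := h1 x
  refine ⟨fun z => if z = u then x else if z = x then u else if z = v then f x
    else if z = f x then v else f z, ⟨?_, ?_⟩, ?_, ?_⟩
  · intro z
    have e1 : f z = u → z = u := fun h => by rw [← h1 z, h, hu]
    have e2 : f z = v → z = v := fun h => by rw [← h1 z, h, hv]
    have e3 : f z = x → z = f x := fun h => by rw [← h1 z, h]
    have e4 : f z = f x → z = x := fun h => by rw [← h1 z, h, h1 x]
    have e5 := h1 z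
    grind
  · intro z hz
    have := h2 z
    have := hux.symm
    have := hvy.symm
    grind
  · intro z
    have := hfix z
    grind
  · funext z
    unfold dec1
    grind

theorem case3 {G : SimpleGraph V} {f : V → V} (hf : IsMatch G f) {u v : V} (huv : u ≠ v)
    (hfix : ∀ z, f z = z ↔ (z = u ∨ z = v)) {a b : V} (hab : G.Adj a b)
    (hua : G.Adj u (f a)) (hvb : G.Adj v (f b)) (hau : a ≠ u) (hav : a ≠ v) (hbu : b ≠ u)
    (hbv : b ≠ v) (hfab : f a ≠ b) :
    ∃ g : V → V, IsMatch G g ∧ (∀ z, g z ≠ z) ∧ dec2 g u v a = f := by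
  obtain ⟨h1, h2⟩ := hf
  have hu : f u = u := (hfix u).2 (Or.inl rfl)
  have hv : f v = v := (hfix v).2 (Or.inr rfl)
  have hne : a ≠ b := hab.ne
  have haa : f a ≠ a := fun h => by
    rcases (hfix a).1 h with h | h
    · exact hau h
    · exact hav h
  have hbb : f b ≠ b := fun h => by
    rcases (hfix b).1 h with h | h
    · exact hbu h
    · exact hbv h
  have hfau : f a ≠ u := fun h => hau (by rw [← h1 a, h, hu])
  have hfav : f a ≠ v := fun h => hav (by rw [← h1 a, h, hv])
  have hfbu : f b ≠ u := fun h => hbu (by rw [← h1 b, h, hu])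
  have hfbv : f b ≠ v := fun h => hbv (by rw [← h1 b, h, hv])
  have hfba : f b ≠ a := fun h => hfab (by rw [← h, h1 b])
  have hfafb : f a ≠ f b := fun h => hne (by rw [← h1 a, h, h1 b])
  have hA := h1 a
  have hB := h1 b
  refine ⟨fun z => if z = u then f a else if z = f a then u else if z = a then b
    else if z = b then a else if z = f b then v else if z = v then f b else f z, ⟨?_, ?_⟩, ?_, ?_⟩
  · intro z
    have e1 : f z = u → z = u := fun h => by rw [← h1 z, h, hu]
    have e2 : f z = v → z = v := fun h => by rw [← h1 z, h, hv]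
    have e3 : f z = a → z = f a := fun h => by rw [← h1 z, h]
    have e4 : f z = f a → z = a := fun h => by rw [← h1 z, h, h1 a]
    have e5 : f z = b → z = f b := fun h => by rw [← h1 z, h]
    have e6 : f z = f b → z = b := fun h => by rw [← h1 z, h, h1 b]
    have e7 := h1 z
    grind
  · intro z hz
    have := h2 z
    have := hua.symm
    have := hvb.symm
    have := hab.symm
    grind
  · intro z
    have := hfix z
    grind
  · funext z
    unfold dec2
    grind


/-- the common decoding map -/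
def dec (c : Fin 3) (g : V → V) (u v a : V) : V → V :=
  if c = 0 then dec0 g u v else if c = 1 then dec1 g u v else dec2 g u v a

theorem exists_code {G : SimpleGraph V} (hconn : G.Connected)
    (hα : ∀ a b c : V, a ≠ b → a ≠ c → b ≠ c → G.Adj a b ∨ G.Adj a c ∨ G.Adj b c)
    {f : V → V} (hf : IsMatch G f) {u v : V} (huv : u ≠ v)
    (hfix : ∀ z, f z = z ↔ (z = u ∨ z = v)) :
    ∃ g : V → V, (IsMatch G g ∧ ∀ z, g z ≠ z) ∧ ∃ (c : Fin 3) (a : V), dec c g u v a = f := by
  by_cases h1 : G.Adj u v
  · obtain ⟨g, hg, hg2, hd⟩ := case1 hf huv hfix h1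
    exact ⟨g, ⟨hg, hg2⟩, 0, u, by simpa [dec] using hd⟩
  by_cases h2 : ∃ x, G.Adj u x ∧ G.Adj v (f x)
  · obtain ⟨x, hx1, hx2⟩ := h2
    obtain ⟨g, hg, hg2, hd⟩ := case2 hf huv hfix hx1 hx2
    exact ⟨g, ⟨hg, hg2⟩, 1, u, by simpa [dec] using hd⟩
  have h2' : ∀ x, G.Adj u x → ¬ G.Adj v (f x) := fun x hx hy => h2 ⟨x, hx, hy⟩
  have hinv := hf.1
  have hu : f u = u := (hfix u).2 (Or.inl rfl)
  have hv : f v = v := (hfix v).2 (Or.inr rfl)
  have hor : ∀ x, x ≠ u → x ≠ v → G.Adj u x ∨ G.Adj v x := by
    intro x hxu hxv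
    rcases hα u v x huv (Ne.symm hxu) (Ne.symm hxv) with h | h | h
    · exact absurd h h1
    · exact Or.inl h
    · exact Or.inr h
  have hfne : ∀ x, x ≠ u → x ≠ v → f x ≠ u ∧ f x ≠ v := by
    intro x hxu hxv
    exact ⟨fun h => hxu (by rw [← hinv x, h, hu]), fun h => hxv (by rw [← hinv x, h, hv])⟩
  obtain ⟨p⟩ := hconn.preconnected u v
  obtain ⟨d, -, hd1, hd2⟩ := p.exists_boundary_dart {z | z = u ∨ G.Adj u z} (Or.inl rfl)
    (by
      intro h
      rcases h with h | h
      · exact huv h.symm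
      · exact h1 h)
  have hab : G.Adj d.fst d.snd := d.adj
  have hbu : d.snd ≠ u := fun h => hd2 (Or.inl h)
  have hbu' : ¬ G.Adj u d.snd := fun h => hd2 (Or.inr h)
  have hau : d.fst ≠ u := by
    intro h
    rw [h] at hab
    exact hbu' hab
  have hua : G.Adj u d.fst := by
    rcases hd1 with h | h
    · exact absurd h hau
    · exact h
  have hav : d.fst ≠ v := by
    intro h
    rw [h] at hua
    exact h1 hua
  have hufa : G.Adj u (f d.fst) := by
    have := hfne _ hau hav
    rcases hor _ this.1 this.2 with h | h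
    · exact h
    · exact absurd h (h2' _ hua)
  have hbv : d.snd ≠ v := by
    intro h
    rw [h] at hab
    refine h2' _ hufa ?_
    rw [hinv]
    exact hab.symm
  have hvb : G.Adj v d.snd := by
    rcases hor _ hbu hbv with h | h
    · exact absurd h hbu'
    · exact h
  have hvfb : G.Adj v (f d.snd) := by
    have := hfne _ hbu hbv
    rcases hor _ this.1 this.2 with h | h
    · exfalso
      refine h2' _ h ?_
      rw [hinv]
      exact hvb
    · exact h
  have hfab : f d.fst ≠ d.snd := by
    intro h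
    rw [h] at hufa
    exact hbu' hufa
  obtain ⟨g, hg, hg2, hd⟩ := case3 hf huv hfix hab hufa hvfb hau hav hbu hbv hfab
  exact ⟨g, ⟨hg, hg2⟩, 2, d.fst, by simpa [dec] using hd⟩

section count

variable [Fintype V]

open Classical in
/-- perfect matchings, coded as involutions -/
noncomputable def PMf (G : SimpleGraph V) : Finset (V → V) :=
  univ.filter fun g => IsMatch G g ∧ ∀ z, g z ≠ z

open Classical in
/-- near-perfect matchings, coded as involutions -/
noncomputable def NPf (G : SimpleGraph V) : Finset (V → V) :=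
  univ.filter fun f => IsMatch G f ∧ ∃ u v, u ≠ v ∧ ∀ z, f z = z ↔ (z = u ∨ z = v)

theorem card_NPf_le' {G : SimpleGraph V}
    (hcode : ∀ f : V → V, IsMatch G f → ∀ u v : V, u ≠ v → (∀ z, f z = z ↔ (z = u ∨ z = v)) →
      ∃ g : V → V, (IsMatch G g ∧ ∀ z, g z ≠ z) ∧ ∃ (c : Fin 3) (a : V), dec c g u v a = f) :
    (NPf G).card ≤ 3 * Fintype.card V ^ 3 * (PMf G).card := by
  classical
  have hsub : NPf G ⊆ ((PMf G) ×ˢ (univ : Finset (Fin 3 × V × V × V))).image
      (fun p => dec p.2.1 p.1 p.2.2.1 p.2.2.2.1 p.2.2.2.2) := by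
    intro f hf
    obtain ⟨-, hf1, u, v, huv, hfix⟩ := Finset.mem_filter.1 hf
    obtain ⟨g, hg, c, a, hd⟩ := hcode f hf1 u v huv hfix
    refine Finset.mem_image.2 ⟨(g, c, u, v, a), ?_, hd⟩
    exact Finset.mem_product.2 ⟨Finset.mem_filter.2 ⟨Finset.mem_univ _, hg⟩, Finset.mem_univ _⟩
  calc (NPf G).card ≤ _ := Finset.card_le_card hsub
    _ ≤ ((PMf G) ×ˢ (univ : Finset (Fin 3 × V × V × V))).card := Finset.card_image_le
    _ = 3 * Fintype.card V ^ 3 * (PMf G).card := by
        rw [Finset.card_product, Finset.card_univ]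
        simp only [Fintype.card_prod, Fintype.card_fin]
        ring

theorem card_NPf_le {G : SimpleGraph V} (hconn : G.Connected)
    (hα : ∀ a b c : V, a ≠ b → a ≠ c → b ≠ c → G.Adj a b ∨ G.Adj a c ∨ G.Adj b c) :
    (NPf G).card ≤ 3 * Fintype.card V ^ 3 * (PMf G).card :=
  card_NPf_le' fun _ hf _ _ huv hfix => exists_code hconn hα hf huv hfix

theorem exists_code_ore {G : SimpleGraph V} [DecidableRel G.Adj]
    (hore : ∀ u v : V, u ≠ v → ¬ G.Adj u v → Fintype.card V ≤ G.degree u + G.degree v + 1)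
    {f : V → V} (hf : IsMatch G f) {u v : V} (huv : u ≠ v)
    (hfix : ∀ z, f z = z ↔ (z = u ∨ z = v)) :
    ∃ g : V → V, (IsMatch G g ∧ ∀ z, g z ≠ z) ∧ ∃ (c : Fin 3) (a : V), dec c g u v a = f := by
  by_cases h1 : G.Adj u v
  · obtain ⟨g, hg, hg2, hd⟩ := case1 hf huv hfix h1
    exact ⟨g, ⟨hg, hg2⟩, 0, u, by simpa [dec] using hd⟩
  by_cases h2 : ∃ x, G.Adj u x ∧ G.Adj v (f x)
  · obtain ⟨x, hx1, hx2⟩ := h2
    obtain ⟨g, hg, hg2, hd⟩ := case2 hf huv hfix hx1 hx2
    exact ⟨g, ⟨hg, hg2⟩, 1, u, by simpa [dec] using hd⟩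
  exfalso
  have hinv := hf.1
  have hu : f u = u := (hfix u).2 (Or.inl rfl)
  have hv : f v = v := (hfix v).2 (Or.inr rfl)
  have hinj : Function.Injective f := fun x y h => by rw [← hinv x, h, hinv y]
  have hdisj : Disjoint (G.neighborFinset u) ((G.neighborFinset v).image f) := by
    rw [Finset.disjoint_left]
    intro x hx hx'
    obtain ⟨y, hy, rfl⟩ := Finset.mem_image.1 hx'
    refine h2 ⟨f y, (G.mem_neighborFinset _ _).1 hx, ?_⟩
    rw [hinv]
    exact (G.mem_neighborFinset _ _).1 hy
  have hsub : (G.neighborFinset u) ∪ ((G.neighborFinset v).image f) ⊆ (univ.erase u).erase v := by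
    intro x hx
    rcases Finset.mem_union.1 hx with hx | hx
    · have hx := (G.mem_neighborFinset _ _).1 hx
      refine Finset.mem_erase.2 ⟨?_, Finset.mem_erase.2 ⟨hx.ne', Finset.mem_univ _⟩⟩
      intro h
      rw [h] at hx
      exact h1 hx
    · obtain ⟨y, hy, rfl⟩ := Finset.mem_image.1 hx
      have hy := (G.mem_neighborFinset _ _).1 hy
      refine Finset.mem_erase.2 ⟨?_, Finset.mem_erase.2 ⟨?_, Finset.mem_univ _⟩⟩
      · intro h
        have : y = v := hinj (h.trans hv.symm)
        exact hy.ne' this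
      · intro h
        have : y = u := hinj (h.trans hu.symm)
        rw [this] at hy
        exact h1 hy.symm
  have hc := Finset.card_le_card hsub
  rw [Finset.card_union_of_disjoint hdisj, Finset.card_image_of_injective _ hinj,
    Finset.card_erase_of_mem (Finset.mem_erase.2 ⟨huv.symm, Finset.mem_univ _⟩),
    Finset.card_erase_of_mem (Finset.mem_univ _), Finset.card_univ,
    G.card_neighborFinset_eq_degree, G.card_neighborFinset_eq_degree] at hc
  have := hore u v huv h1
  have h2' : 2 ≤ Fintype.card V := by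
    have : ({u, v} : Finset V).card ≤ Fintype.card V := Finset.card_le_univ _
    rwa [Finset.card_pair huv] at this
  omega

end count


section transfer

open Classical in
/-- the partner map of a subgraph -/
noncomputable def partner {G : SimpleGraph V} (M : G.Subgraph) (v : V) : V :=
  if h : ∃ w, M.Adj v w then h.choose else v

theorem partner_adj {G : SimpleGraph V} {M : G.Subgraph} {v : V} (h : ∃ w, M.Adj v w) :
    M.Adj v (partner M v) := by
  unfold partner
  rw [dif_pos h]
  exact h.choose_spec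

theorem partner_eq {G : SimpleGraph V} {M : G.Subgraph} (hM : M.IsMatching) {v w : V}
    (h : M.Adj v w) : partner M v = w := by
  obtain ⟨x, -, hx⟩ := hM (M.edge_vert h)
  rw [hx _ (partner_adj ⟨w, h⟩), hx _ h]

theorem partner_self {G : SimpleGraph V} {M : G.Subgraph} {v : V} (h : ¬ ∃ w, M.Adj v w) :
    partner M v = v := by
  unfold partner
  rw [dif_neg h]

theorem partner_fix_iff {G : SimpleGraph V} {M : G.Subgraph} (hM : M.IsMatching) (v : V) :
    partner M v = v ↔ v ∉ M.verts := by
  constructor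
  · intro h hv
    obtain ⟨x, hx, -⟩ := hM hv
    have := partner_adj ⟨x, hx⟩
    rw [h] at this
    exact G.irrefl (M.adj_sub this)
  · intro hv
    exact partner_self fun ⟨w, hw⟩ => hv (M.edge_vert hw)

theorem partner_isMatch {G : SimpleGraph V} {M : G.Subgraph} (hM : M.IsMatching) :
    IsMatch G (partner M) := by
  constructor
  · intro v
    by_cases h : ∃ w, M.Adj v w
    · exact partner_eq hM (partner_adj h).symm
    · rw [partner_self h, partner_self h]
  · intro v hv
    by_cases h : ∃ w, M.Adj v w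
    · exact M.adj_sub (partner_adj h)
    · exact absurd (partner_self h) hv

theorem partner_adj_iff {G : SimpleGraph V} {M : G.Subgraph} (hM : M.IsMatching) (v w : V) :
    M.Adj v w ↔ (partner M v = w ∧ w ≠ v) := by
  constructor
  · intro h
    exact ⟨partner_eq hM h, (M.adj_sub h).ne'⟩
  · rintro ⟨h1, h2⟩
    by_cases h : ∃ x, M.Adj v x
    · rw [← h1]
      exact partner_adj h
    · rw [partner_self h] at h1
      exact absurd h1.symm h2

theorem partner_injOn {G : SimpleGraph V} :
    Set.InjOn (partner (G := G)) {M : G.Subgraph | M.IsMatching} := by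
  intro M1 h1 M2 h2 h
  have h1' : M1.IsMatching := h1
  have h2' : M2.IsMatching := h2
  refine SimpleGraph.Subgraph.ext ?_ ?_
  · ext v
    have e1 := partner_fix_iff h1' v
    have e2 := partner_fix_iff h2' v
    rw [h] at e1
    have := e1.symm.trans e2
    exact not_iff_not.1 this
  · funext v w
    apply propext
    rw [partner_adj_iff h1', partner_adj_iff h2', h]

/-- the subgraph of an involution -/
def ofFun (G : SimpleGraph V) (g : V → V) : G.Subgraph where
  verts := Set.univ
  Adj v w := g v = w ∧ g w = v ∧ G.Adj v w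
  adj_sub h := h.2.2
  edge_vert _ := Set.mem_univ _
  symm := ⟨fun _ _ h => ⟨h.2.1, h.1, h.2.2.symm⟩⟩

theorem ofFun_perfect {G : SimpleGraph V} {g : V → V} (hg : IsMatch G g) (hg2 : ∀ z, g z ≠ z) :
    (ofFun G g).IsPerfectMatching := by
  refine ⟨?_, fun v => Set.mem_univ v⟩
  intro v _
  exact ⟨g v, ⟨rfl, hg.1 v, hg.2 v (hg2 v)⟩, fun w hw => hw.1.symm⟩

theorem ofFun_inj {G : SimpleGraph V} {g1 g2 : V → V} (h1 : IsMatch G g1) (h1' : ∀ z, g1 z ≠ z)
    (h : ofFun G g1 = ofFun G g2) : g1 = g2 := by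
  funext v
  have e : (ofFun G g1).Adj v (g1 v) := ⟨rfl, h1.1 v, h1.2 v (h1' v)⟩
  rw [h] at e
  exact e.1.symm

variable [Fintype V]

theorem transfer {G : SimpleGraph V}
    (h : (NPf G).card ≤ 3 * Fintype.card V ^ 3 * (PMf G).card) :
    {M : G.Subgraph | M.IsMatching ∧ (M.vertsᶜ).ncard = 2}.ncard
      ≤ 3 * Fintype.card V ^ 3 * {M : G.Subgraph | M.IsPerfectMatching}.ncard := by
  classical
  have step1 : {M : G.Subgraph | M.IsMatching ∧ (M.vertsᶜ).ncard = 2}.ncard ≤ (NPf G).card := by
    rw [← Set.ncard_coe_finset (NPf G)]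
    refine Set.ncard_le_ncard_of_injOn (partner (G := G)) ?_ ?_ (Finset.finite_toSet _)
    · rintro M ⟨hM, hc⟩
      obtain ⟨u, v, huv, hs⟩ := Set.ncard_eq_two.1 hc
      refine Finset.mem_coe.2 (Finset.mem_filter.2 ⟨Finset.mem_univ _, partner_isMatch hM,
        u, v, huv, fun z => ?_⟩)
      rw [partner_fix_iff hM, ← Set.mem_compl_iff, hs]
      simp
    · exact partner_injOn.mono fun M hM => hM.1
  have step2 : (PMf G).card ≤ {M : G.Subgraph | M.IsPerfectMatching}.ncard := by
    rw [← Set.ncard_coe_finset (PMf G)]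
    refine Set.ncard_le_ncard_of_injOn (ofFun G) ?_ ?_ (Set.toFinite _)
    · intro g hg
      obtain ⟨-, h1, h2⟩ := Finset.mem_filter.1 (Finset.mem_coe.1 hg)
      exact ofFun_perfect h1 h2
    · intro g1 hg1 g2 _ h
      obtain ⟨-, h1, h2⟩ := Finset.mem_filter.1 (Finset.mem_coe.1 hg1)
      exact ofFun_inj h1 h2 h
  calc _ ≤ (NPf G).card := step1
    _ ≤ 3 * Fintype.card V ^ 3 * (PMf G).card := h
    _ ≤ _ := Nat.mul_le_mul_left _ step2

theorem main {G : SimpleGraph V} (hconn : G.Connected) (hα : G.indepNum ≤ 2) :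
    {M : G.Subgraph | M.IsMatching ∧ (M.vertsᶜ).ncard = 2}.ncard
      ≤ 3 * Fintype.card V ^ 3 * {M : G.Subgraph | M.IsPerfectMatching}.ncard := by
  classical
  have hα' : ∀ a b c : V, a ≠ b → a ≠ c → b ≠ c → G.Adj a b ∨ G.Adj a c ∨ G.Adj b c := by
    intro a b c hab hac hbc
    by_contra hcon
    simp only [not_or] at hcon
    have hind : G.IsIndepSet (({a, b, c} : Finset V) : Set V) := by
      intro x hx y hy hxy
      simp only [Finset.coe_insert, Finset.coe_singleton, Set.mem_insert_iff,
        Set.mem_singleton_iff] at hx hy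
      have s1 : ¬ G.Adj b a := fun h => hcon.1 h.symm
      have s2 : ¬ G.Adj c a := fun h => hcon.2.1 h.symm
      have s3 : ¬ G.Adj c b := fun h => hcon.2.2 h.symm
      rcases hx with rfl | rfl | rfl <;> rcases hy with rfl | rfl | rfl <;>
        first | exact absurd rfl hxy | tauto
    have hc := hind.card_le_indepNum
    have h3 : ({a, b, c} : Finset V).card = 3 := Finset.card_eq_three.2 ⟨a, b, c, hab, hac, hbc, rfl⟩
    omega
  exact transfer (card_NPf_le hconn hα')

theorem main_ore {G : SimpleGraph V} [DecidableRel G.Adj]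
    (hore : ∀ u v : V, u ≠ v → ¬ G.Adj u v → Fintype.card V ≤ G.degree u + G.degree v + 1) :
    {M : G.Subgraph | M.IsMatching ∧ (M.vertsᶜ).ncard = 2}.ncard
      ≤ 3 * Fintype.card V ^ 3 * {M : G.Subgraph | M.IsPerfectMatching}.ncard :=
  transfer (card_NPf_le' fun _ hf _ _ huv hfix => exists_code_ore hore hf huv hfix)

end transfer

end Vale.Agent.P308.IndepTwo
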