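import Vale.Agent.P308.Prob

/-!
# Chebyshev's inequality for averages of independent uniform samples
-/

namespace Vale.Agent.P308

open Finset

variable {R : Type*} [Fintype R] [Nonempty R]

theorem ex_coord {ι : Type*} [Fintype ι] [DecidableEq ι] (i : ι) (F : R → ℝ) :
    ex (ι → R) (fun ω => F (ω i)) = ex R F := by
  have h1 : ex (R × ({j // j ≠ i} → R)) (fun p => F p.1) = ex R F := by
    rw [ex_prod]
    apply ex_congr
    intro a
    exact ex_const (S := {j // j ≠ i} → R) (F a)
  rw [← h1, ← ex_equiv (Equiv.funSplitAt i R)]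
  rfl

theorem first_moment (g : R → ℝ) (hg : ex R g = 0) (s : ℕ) :
    ex (Fin s → R) (fun x => ∑ j, g (x j)) = 0 := by
  rw [ex_sum]
  apply Finset.sum_eq_zero
  intro j _
  rw [ex_coord j g, hg]

theorem second_moment (g : R → ℝ) (hg : ex R g = 0) :
    ∀ s : ℕ, ex (Fin s → R) (fun x => (∑ j, g (x j)) ^ 2) = s * ex R (fun r => g r ^ 2) := by
  intro s
  induction s with
  | zero =>
    simp
    exact ex_const 0
  | succ s ih =>
    have h1 : ∀ ω : Fin (s + 1) → R, (∑ j, g (ω j)) ^ 2 =
        (fun (r : R) (x : Fin s → R) => (g r + ∑ i, g (x i)) ^ 2) (ω 0) (fun i => ω i.succ) := by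
      intro ω
      rw [Fin.sum_univ_succ]
    rw [ex_congr h1, ex_pi_succ (fun (r : R) (x : Fin s → R) => (g r + ∑ i, g (x i)) ^ 2)]
    have h2 : ∀ r : R, ex (Fin s → R) (fun x => (g r + ∑ i, g (x i)) ^ 2) =
        g r ^ 2 + s * ex R (fun r => g r ^ 2) := by
      intro r
      have h3 : ∀ x : Fin s → R, (g r + ∑ i, g (x i)) ^ 2 =
          g r ^ 2 + ((2 * g r) * (∑ i, g (x i)) + (∑ i, g (x i)) ^ 2) := by
        intro x
        ring
      rw [ex_congr h3, ex_add, ex_add, ex_mul_left, first_moment g hg, ih, ex_const]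
      ring
    rw [ex_congr h2, ex_add, ex_const]
    push_cast
    ring

theorem cheb (f : R → ℝ) (c : ℝ) (hc : ∀ r, |f r - ex R f| ≤ c) (s : ℕ) (hs : 0 < s)
    {β : ℝ} (hβ : 0 < β) :
    prob (Fin s → R) (fun x => β < |(∑ j, f (x j)) / s - ex R f|) ≤ c ^ 2 / (s * β ^ 2) := by
  set μ := ex R f with hμ
  set g : R → ℝ := fun r => f r - μ with hg
  have hs' : (0 : ℝ) < s := by exact_mod_cast hs
  have hg0 : ex R g = 0 := by
    have : ∀ r, g r = f r + (-μ) := fun r => by rw [hg]; ring
    rw [ex_congr this, ex_add, ex_const]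
    ring
  have hT : ∀ x : Fin s → R, (∑ j, f (x j)) / s - μ = (∑ j, g (x j)) / s := by
    intro x
    rw [hg]
    simp only [Finset.sum_sub_distrib, Finset.sum_const, card_univ, Fintype.card_fin, nsmul_eq_mul]
    field_simp
  have h1 : prob (Fin s → R) (fun x => β < |(∑ j, f (x j)) / s - μ|) ≤
      prob (Fin s → R) (fun x => (s * β) ^ 2 < (∑ j, g (x j)) ^ 2) := by
    apply prob_mono
    intro x hx
    rw [hT, abs_div, abs_of_pos hs', lt_div_iff₀ hs'] at hx
    rw [← sq_abs (∑ j, g (x j))]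
    have h0 : 0 ≤ β * s := by positivity
    nlinarith
  have h2 := markov (S := Fin s → R) (F := fun x => (∑ j, g (x j)) ^ 2) (fun x => sq_nonneg _)
    (a := (s * β) ^ 2) (by positivity)
  rw [second_moment g hg0] at h2
  have h3 : ex R (fun r => g r ^ 2) ≤ c ^ 2 := by
    have : ex R (fun r => g r ^ 2) ≤ ex R (fun _ => c ^ 2) := by
      apply ex_mono
      intro r
      rw [← sq_abs (g r)]
      have := hc r
      have h0 := abs_nonneg (g r)
      have : |g r| ≤ c := hc r
      nlinarith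
    rwa [ex_const] at this
  calc _ ≤ _ := h1
    _ ≤ _ := h2
    _ ≤ s * c ^ 2 / (s * β) ^ 2 := by
        apply div_le_div_of_nonneg_right _ (by positivity)
        exact mul_le_mul_of_nonneg_left h3 hs'.le
    _ = c ^ 2 / (s * β ^ 2) := by
        field_simp

end Vale.Agent.P308
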