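import Vale.Agent.P308.Gadget
import Vale.Agent.P335.Defs

/-!
# Counting the perfect matchings of the gadget graph over a fixed factor
-/

namespace Vale.Agent.P308

open Finset Vale.Agent.P335

variable {n : ℕ} {d : Fin n → ℕ}

/-- involutions compatible with `G` correspond to families of bijections -/
noncomputable def involFibreEquiv (G : SimpleGraph (Fin n)) :
    {m : Port n ⊕ Dummy d → Port n ⊕ Dummy d // IsInvol (gadget d) m ∧ Compat G m} ≃
      (∀ v, Fin (n - 1 - d v) ≃ NonNbr G v) where
  toFun m := fun v => toBij m.2.1 m.2.2 v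
  invFun e := ⟨ofBij G e, ofBij_isInvol G e, ofBij_compat G e⟩
  left_inv := by
    rintro ⟨m, hm, hc⟩
    apply Subtype.ext
    funext x
    rcases x with p | z
    · obtain ⟨⟨a, b⟩, hp⟩ := p
      show ofBij G (fun v => toBij hm hc v) (Sum.inl ⟨(a, b), hp⟩) = m (Sum.inl ⟨(a, b), hp⟩)
      by_cases hG : G.Adj a b
      · rw [(hc a b hp).1 hG]
        simp [ofBij, hG]
      · rcases port_mate hm a b hp with h1 | ⟨k, h1⟩
        · exact (hG ((hc a b hp).2 h1)).elim
        · rw [h1]
          simp only [ofBij, dif_neg hG]
          have : (toBij hm hc a).symm ⟨b, hp.symm, hG⟩ = k := by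
            rw [Equiv.symm_apply_eq]
            apply Subtype.ext
            show b = sndOf (m (Sum.inr ⟨a, k⟩))
            rw [← h1, (hm _).2]
            rfl
          rw [this]
    · obtain ⟨v, k⟩ := z
      exact (mate_dummy_eq hm v k _).symm
  right_inv := by
    intro e
    funext v
    apply Equiv.ext
    intro k
    apply Subtype.ext
    rfl

/-- the perfect matchings of the gadget over a fixed `G` -/
noncomputable def pmFibreEquiv (G : SimpleGraph (Fin n)) :
    {M : PM (gadget d) // factorOf M.1 = G} ≃ (∀ v, Fin (n - 1 - d v) ≃ NonNbr G v) :=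
  (((pmEquiv (gadget d)).subtypeEquiv (fun M => factorOf_eq_iff M G)).trans
    (Equiv.subtypeSubtypeEquivSubtypeInter _ _)).trans (involFibreEquiv G)

theorem card_nonNbr (G : SimpleGraph (Fin n)) (v : Fin n) [Fintype (NonNbr G v)]
    [Fintype (G.neighborSet v)] : Fintype.card (NonNbr G v) = n - 1 - G.degree v := by
  classical
  have h1 : Gᶜ.degree v = Fintype.card (Fin n) - 1 - G.degree v := SimpleGraph.degree_compl G v
  rw [Fintype.card_fin] at h1
  rw [← h1, ← SimpleGraph.card_neighborSet_eq_degree]
  apply Fintype.card_congr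
  apply Equiv.subtypeEquivRight
  intro u
  simp only [SimpleGraph.mem_neighborSet, SimpleGraph.compl_adj]
  constructor
  · rintro ⟨a, b⟩
    exact ⟨a.symm, b⟩
  · rintro ⟨a, b⟩
    exact ⟨a.symm, b⟩

theorem degree_factorOf (hd : ∀ v, d v ≤ n - 1) (M : PM (gadget d)) (v : Fin n)
    [Fintype ((factorOf M.1).neighborSet v)] : (factorOf M.1).degree v = d v := by
  classical
  have e := toBij (mate_isInvol M.2) ((factorOf_eq_iff M _).1 rfl) v
  have h1 := Fintype.card_congr e
  rw [Fintype.card_fin, card_nonNbr] at h1
  have h2 : (factorOf M.1).degree v ≤ n - 1 := by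
    have h4 : (factorOf M.1).neighborFinset v ⊆ (univ : Finset (Fin n)).erase v := by
      intro x hx
      rw [SimpleGraph.mem_neighborFinset] at hx
      exact Finset.mem_erase.2 ⟨hx.ne', mem_univ _⟩
    have h5 := Finset.card_le_card h4
    rw [Finset.card_erase_of_mem (mem_univ _), Finset.card_univ, Fintype.card_fin] at h5
    exact h5
  have h3 := hd v
  omega

open Classical in
theorem degree_factorOf' (hd : ∀ v, d v ≤ n - 1) (M : PM (gadget d)) :
    ∀ v, (factorOf M.1).degree v = d v := fun v => degree_factorOf hd M v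

/-- the factor of a perfect matching, as an element of `Omega d` -/
noncomputable def proj (hd : ∀ v, d v ≤ n - 1) (M : PM (gadget d)) : Omega d :=
  ⟨factorOf M.1, degree_factorOf' hd M⟩

open Classical in
/-- the perfect matchings of the gadget graph that project to `G` -/
noncomputable def fibre (d : Fin n → ℕ) (G : SimpleGraph (Fin n)) : Finset (PM (gadget d)) :=
  univ.filter (fun M => factorOf M.1 = G)

theorem card_fibre (G : Omega d) : (fibre d G.1).card = ∏ v, (n - 1 - d v).factorial := by
  classical
  have h0 : (fibre d G.1).card = Fintype.card {M : PM (gadget d) // factorOf M.1 = G.1} := by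
    rw [Fintype.card_subtype]
    rfl
  rw [h0, Fintype.card_congr (pmFibreEquiv G.1), Fintype.card_pi]
  apply Finset.prod_congr rfl
  intro v _
  have hc : Fintype.card (Fin (n - 1 - d v)) = Fintype.card (NonNbr G.1 v) := by
    rw [Fintype.card_fin, card_nonNbr]
    have := G.2 v
    rw [← this]
  rw [Fintype.card_equiv (Fintype.equivOfCardEq hc), Fintype.card_fin]

end Vale.Agent.P308
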