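import Vale.Agent.P308.Run

/-!
# A randomized approximation scheme for the number of realizations of a degree vector
-/

namespace Vale.Agent.P308

open Finset Vale.Agent.P335

variable {n : ℕ}

/-- the estimators of one stage: a flag and an ordered pair of vertices -/
abbrev Q (n : ℕ) : Type := Bool × Fin n × Fin n

/-- the seeds of one stage: for every estimator, `s` runs of `T` steps -/
abbrev StageSeed (n T s : ℕ) : Type := Q n → Fin s → Fin T → Seed1 n

noncomputable instance instFintypeStageSeed (n T s : ℕ) : Fintype (StageSeed n T s) :=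
  inferInstance

/-- the pairs `(u,w)` along which one unit of degree may be moved from `w` to `u` -/
def Valid (e : Fin n → ℕ) (u w : Fin n) : Prop := u ≠ w ∧ 1 ≤ e w ∧ e w ≤ e u

/-- empirical mean of `excess · w u` on `Omega e` -/
noncomputable def bHat (T s : ℕ) (e : Fin n → ℕ) (ω : StageSeed n T s) (u w : Fin n) : ℝ :=
  est T s e w u (ω (false, u, w))

/-- empirical mean of `excess · u w` on `Omega (shift e u w)` -/
noncomputable def aHat (T s : ℕ) (e : Fin n → ℕ) (ω : StageSeed n T s) (u w : Fin n) : ℝ :=
  est T s (shift e u w) u w (ω (true, u, w))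

open Classical in
/-- some valid pair whose empirical mean is at least `θ`, if there is one -/
noncomputable def choosePair (θ : ℝ) (T s : ℕ) (e : Fin n → ℕ) (ω : StageSeed n T s) :
    Option (Fin n × Fin n) :=
  if h : ∃ p : Fin n × Fin n, Valid e p.1 p.2 ∧ θ ≤ bHat T s e ω p.1 p.2 then
    some (Classical.choose h) else none

/-- the estimator of `|Omega e|`: at most `k` stages; a stage picks a valid pair `(u,w)` with
empirical mean at least `θ`, multiplies by the ratio of the two empirical means and continues with
`shift e u w`; it stops with factor `1` when there is no such pair -/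
noncomputable def alg (θ : ℝ) (T s : ℕ) : (k : ℕ) → (Fin n → ℕ) → (Fin k → StageSeed n T s) → ℝ
  | 0, _, _ => 1
  | k + 1, e, ω =>
    match choosePair θ T s e (ω 0) with
    | none => 1
    | some p => aHat T s e (ω 0) p.1 p.2 / bHat T s e (ω 0) p.1 p.2 *
        alg θ T s k (shift e p.1 p.2) (fun i => ω i.succ)

/-- all estimators of the stage are within `α` of the true means -/
def Good (α : ℝ) (T s : ℕ) (e : Fin n → ℕ) (ω : StageSeed n T s) : Prop :=
  ∀ u w, (Nonempty (Omega e) → |bHat T s e ω u w - meanExcess e w u| ≤ α) ∧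
    (Nonempty (Omega (shift e u w)) →
      |aHat T s e ω u w - meanExcess (shift e u w) u w| ≤ α)

/-- all visited stages are good -/
def AllGood (θ α : ℝ) (T s : ℕ) : (k : ℕ) → (Fin n → ℕ) → (Fin k → StageSeed n T s) → Prop
  | 0, _, _ => True
  | k + 1, e, ω => Good α T s e (ω 0) ∧
    match choosePair θ T s e (ω 0) with
    | none => True
    | some p => AllGood θ α T s k (shift e p.1 p.2) (fun i => ω i.succ)

theorem prob_false (S : Type*) [Fintype S] : prob S (fun _ => False) = 0 := by
  unfold prob ex
  simp [ind_neg]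

theorem prob_not_good (hn : 4 ≤ n) (e : Fin n → ℕ) (T s κ : ℕ)
    (hT : 2 * n ^ 4 * (n ^ 2 + 2 * κ) ≤ T) (hs : 0 < s) {β : ℝ} (hβ : 0 < β) :
    prob (StageSeed n T s) (fun ω => ¬ Good (β + n / 2 ^ κ) T s e ω) ≤
      2 * n ^ 2 * (n ^ 2 / (s * β ^ 2)) := by
  classical
  have := seed_nonempty hn
  set α : ℝ := β + n / 2 ^ κ with hα
  have hs' : (0 : ℝ) < s := by exact_mod_cast hs
  have hb0 : (0 : ℝ) ≤ n ^ 2 / (s * β ^ 2) := by positivity
  let Bad : Q n → (Fin s → Fin T → Seed1 n) → Prop := fun q ρ =>
    (q.1 = false ∧ Nonempty (Omega e) ∧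
      α < |est T s e q.2.2 q.2.1 ρ - meanExcess e q.2.2 q.2.1|) ∨
    (q.1 = true ∧ Nonempty (Omega (shift e q.2.1 q.2.2)) ∧
      α < |est T s (shift e q.2.1 q.2.2) q.2.1 q.2.2 ρ -
        meanExcess (shift e q.2.1 q.2.2) q.2.1 q.2.2|)
  have hBad : ∀ q, prob (Fin s → Fin T → Seed1 n) (Bad q) ≤ n ^ 2 / (s * β ^ 2) := by
    rintro ⟨b, u, w⟩
    cases b with
    | false =>
      by_cases he : Nonempty (Omega e)
      · refine le_trans (prob_mono ?_) (est_conc hn e he w u T s κ hT hs hβ)
        rintro ρ (⟨-, -, h⟩ | ⟨h, -⟩)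
        · exact h
        · exact absurd h (by simp)
      · refine le_trans (prob_mono (E' := fun _ => False) ?_) (by rw [prob_false]; exact hb0)
        rintro ρ (⟨-, h, -⟩ | ⟨h, -⟩)
        · exact he h
        · exact absurd h (by simp)
    | true =>
      by_cases he : Nonempty (Omega (shift e u w))
      · refine le_trans (prob_mono ?_) (est_conc hn (shift e u w) he u w T s κ hT hs hβ)
        rintro ρ (⟨h, -⟩ | ⟨-, -, h⟩)
        · exact absurd h (by simp)
        · exact h
      · refine le_trans (prob_mono (E' := fun _ => False) ?_) (by rw [prob_false]; exact hb0)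
        rintro ρ (⟨h, -⟩ | ⟨-, h, -⟩)
        · exact absurd h (by simp)
        · exact he h
  have h1 : prob (StageSeed n T s) (fun ω => ¬ Good α T s e ω) ≤
      prob (StageSeed n T s) (fun ω => ∃ q ∈ (univ : Finset (Q n)), Bad q (ω q)) := by
    apply prob_mono
    intro ω hω
    unfold Good at hω
    push Not at hω
    obtain ⟨u, w, hω⟩ := hω
    by_cases h1 : Nonempty (Omega e) → |bHat T s e ω u w - meanExcess e w u| ≤ α
    · obtain ⟨h2, h3⟩ := hω h1
      exact ⟨(true, u, w), mem_univ _, Or.inr ⟨rfl, h2, h3⟩⟩
    · push Not at h1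
      exact ⟨(false, u, w), mem_univ _, Or.inl ⟨rfl, h1.1, h1.2⟩⟩
  refine le_trans h1 (le_trans (prob_union _ _) ?_)
  have h2 : ∀ q ∈ (univ : Finset (Q n)), prob (StageSeed n T s) (fun ω => Bad q (ω q)) ≤
      n ^ 2 / (s * β ^ 2) := by
    intro q _
    rw [prob_coord q (Bad q)]
    exact hBad q
  refine le_trans (Finset.sum_le_sum h2) ?_
  rw [Finset.sum_const, nsmul_eq_mul, Finset.card_univ, Fintype.card_prod, Fintype.card_prod,
    Fintype.card_bool, Fintype.card_fin]
  apply le_of_eq
  push_cast
  ring

theorem prob_not_allGood (hn : 4 ≤ n) (θ α : ℝ) (T s : ℕ) {η : ℝ}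
    (hη : ∀ e : Fin n → ℕ, prob (StageSeed n T s) (fun ω => ¬ Good α T s e ω) ≤ η) :
    ∀ (k : ℕ) (e : Fin n → ℕ),
      prob (Fin k → StageSeed n T s) (fun ω => ¬ AllGood θ α T s k e ω) ≤ k * η := by
  have := seed_nonempty hn
  have hη0 : 0 ≤ η := le_trans (prob_nonneg _) (hη (fun _ => 0))
  intro k
  induction k with
  | zero =>
    intro e
    have : ∀ ω : Fin 0 → StageSeed n T s, ¬ AllGood θ α T s 0 e ω → False :=
      fun ω h => h trivial
    refine le_trans (prob_mono this) ?_
    rw [prob_false]
    simp
  | succ k ih =>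
    intro e
    let E2 : StageSeed n T s → (Fin k → StageSeed n T s) → Prop := fun r x =>
      match choosePair θ T s e r with
      | none => False
      | some p => ¬ AllGood θ α T s k (shift e p.1 p.2) x
    have h1 : prob (Fin (k + 1) → StageSeed n T s) (fun ω => ¬ AllGood θ α T s (k + 1) e ω) ≤
        prob (Fin (k + 1) → StageSeed n T s)
          (fun ω => (fun r x => ¬ Good α T s e r ∨ E2 r x) (ω 0) (fun i => ω i.succ)) := by
      apply prob_mono
      intro ω hω
      by_cases hg : Good α T s e (ω 0)
      · right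
        show match choosePair θ T s e (ω 0) with
          | none => False
          | some p => ¬ AllGood θ α T s k (shift e p.1 p.2) (fun i => ω i.succ)
        unfold AllGood at hω
        cases hc : choosePair θ T s e (ω 0) with
        | none =>
          rw [hc] at hω
          exact hω ⟨hg, trivial⟩
        | some p =>
          rw [hc] at hω
          exact fun h => hω ⟨hg, h⟩
      · left
        exact hg
    rw [prob_pi_succ (fun r x => ¬ Good α T s e r ∨ E2 r x)] at h1
    have h2 : ∀ r, prob (Fin k → StageSeed n T s) (E2 r) ≤ k * η := by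
      intro r
      show prob (Fin k → StageSeed n T s) (fun x => match choosePair θ T s e r with
        | none => False
        | some p => ¬ AllGood θ α T s k (shift e p.1 p.2) x) ≤ k * η
      cases hc : choosePair θ T s e r with
      | none =>
        show prob (Fin k → StageSeed n T s) (fun _ => False) ≤ k * η
        rw [prob_false]
        positivity
      | some p => exact ih _
    have h3 := prob_prod_bound (fun r => ¬ Good α T s e r) E2 h2
    have h4 := hη e
    push_cast
    linarith

end Vale.Agent.P308
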