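import Vale.Agent.P308.Prob

/-!
# Amplification of the success probability by the median of independent repetitions
-/

namespace Vale.Agent.P308

open Finset

variable {S : Type*} [Fintype S]

theorem ex_pi_prod {ι : Type*} [Fintype ι] [DecidableEq ι] (F : ι → S → ℝ) :
    ex (ι → S) (fun ω => ∏ i, F i (ω i)) = ∏ i, ex S (F i) := by
  unfold ex
  rw [Finset.prod_div_distrib, Finset.prod_const, Finset.card_univ, Fintype.card_fun,
    Finset.prod_univ_sum, Fintype.piFinset_univ]
  push_cast
  rfl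

theorem prob_all [Nonempty S] {ι : Type*} [Fintype ι] [DecidableEq ι] (I : Finset ι)
    (E : S → Prop) : prob (ι → S) (fun ω => ∀ i ∈ I, E (ω i)) = prob S E ^ I.card := by
  unfold prob
  have h1 : ∀ ω : ι → S, ind (∀ i ∈ I, E (ω i)) =
      ∏ i, (fun (i : ι) (x : S) => if i ∈ I then ind (E x) else 1) i (ω i) := by
    intro ω
    by_cases h : ∀ i ∈ I, E (ω i)
    · rw [ind_pos h]
      symm
      apply Finset.prod_eq_one
      intro i _
      by_cases hi : i ∈ I
      · simp only [hi, if_true]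
        exact ind_pos (h i hi)
      · simp only [hi, if_false]
    · rw [ind_neg h]
      push Not at h
      obtain ⟨i, hi, hE⟩ := h
      symm
      apply Finset.prod_eq_zero (mem_univ i)
      simp only [hi, if_true]
      exact ind_neg hE
  rw [ex_congr h1, ex_pi_prod (fun (i : ι) (x : S) => if i ∈ I then ind (E x) else 1)]
  have h2 : ∀ i, ex S (fun x => if i ∈ I then ind (E x) else 1) =
      if i ∈ I then ex S (fun x => ind (E x)) else 1 := by
    intro i
    by_cases hi : i ∈ I
    · simp only [hi, if_true]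
    · simp only [hi, if_false]
      exact ex_const 1
  rw [Finset.prod_congr rfl (fun i _ => h2 i), Finset.prod_ite_mem, Finset.univ_inter,
    Finset.prod_const]

open Classical in
/-- the number of indices with property `P` -/
noncomputable def cnt {ι : Type*} [Fintype ι] (P : ι → Prop) : ℕ := (univ.filter P).card

theorem cnt_eq_card {ι : Type*} [Fintype ι] (P : ι → Prop) [DecidablePred P] :
    cnt P = (univ.filter P).card := by
  unfold cnt
  exact congrArg Finset.card (Finset.filter_congr_decidable _ _ _)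

theorem cnt_add_not {ι : Type*} [Fintype ι] (P : ι → Prop) :
    cnt P + cnt (fun i => ¬ P i) = Fintype.card ι := by
  classical
  rw [cnt_eq_card, cnt_eq_card]
  have h := Finset.card_filter_add_card_filter_not (s := (univ : Finset ι)) P
  rw [Finset.card_univ] at h
  exact h

theorem prob_many_bad [Nonempty S] (E : S → Prop) {p : ℝ} (hp : prob S E ≤ p) (r : ℕ) :
    prob (Fin (2 * r + 1) → S) (fun ω => r + 1 ≤ cnt (fun i => E (ω i))) ≤
      2 ^ (2 * r + 1) * p ^ (r + 1) := by
  classical
  have hp0 : 0 ≤ p := le_trans (prob_nonneg _) hp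
  have h1 : prob (Fin (2 * r + 1) → S) (fun ω => r + 1 ≤ cnt (fun i => E (ω i))) ≤
      prob (Fin (2 * r + 1) → S) (fun ω => ∃ I ∈ (univ : Finset (Fin (2 * r + 1))).powersetCard
        (r + 1), ∀ i ∈ I, E (ω i)) := by
    apply prob_mono
    intro ω hω
    rw [cnt_eq_card] at hω
    obtain ⟨I, hI, hc⟩ := Finset.exists_subset_card_eq hω
    exact ⟨I, Finset.mem_powersetCard.2 ⟨Finset.subset_univ _, hc⟩,
      fun i hi => (Finset.mem_filter.1 (hI hi)).2⟩
  refine le_trans h1 (le_trans (prob_union _ _) ?_)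
  have h2 : ∀ I ∈ (univ : Finset (Fin (2 * r + 1))).powersetCard (r + 1),
      prob (Fin (2 * r + 1) → S) (fun ω => ∀ i ∈ I, E (ω i)) ≤ p ^ (r + 1) := by
    intro I hI
    rw [prob_all, (Finset.mem_powersetCard.1 hI).2]
    exact pow_le_pow_left₀ (prob_nonneg _) hp _
  refine le_trans (Finset.sum_le_sum h2) ?_
  rw [Finset.sum_const, nsmul_eq_mul, Finset.card_powersetCard, Finset.card_univ, Fintype.card_fin]
  apply mul_le_mul_of_nonneg_right _ (pow_nonneg hp0 _)
  exact_mod_cast Nat.choose_le_two_pow _ _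

/-- the median of `2r+1` reals: the least of these values `y` such that at least `r+1` of them are
at most `y` -/
noncomputable def median (r : ℕ) (x : Fin (2 * r + 1) → ℝ) : ℝ :=
  sInf {y | ∃ i, x i = y ∧ r + 1 ≤ cnt (fun j => x j ≤ y)}

theorem median_mem (r : ℕ) (x : Fin (2 * r + 1) → ℝ) (lo hi : ℝ)
    (h : r + 1 ≤ cnt (fun i => lo ≤ x i ∧ x i ≤ hi)) :
    lo ≤ median r x ∧ median r x ≤ hi := by
  classical
  set A : Set ℝ := {y | ∃ i, x i = y ∧ r + 1 ≤ cnt (fun j => x j ≤ y)} with hA
  rw [cnt_eq_card] at h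
  set Gd := univ.filter (fun i => lo ≤ x i ∧ x i ≤ hi) with hGd
  have hfin : A.Finite := by
    apply (Set.finite_range x).subset
    rintro y ⟨i, hi, -⟩
    exact ⟨i, hi⟩
  have hne : Gd.Nonempty := Finset.card_pos.1 (by omega)
  obtain ⟨i0, hi0, hmax⟩ := Finset.exists_max_image Gd x hne
  have hmem : x i0 ∈ A := by
    refine ⟨i0, rfl, ?_⟩
    rw [cnt_eq_card]
    refine le_trans h (Finset.card_le_card ?_)
    intro j hj
    exact Finset.mem_filter.2 ⟨mem_univ _, hmax j hj⟩
  have hAne : A.Nonempty := ⟨_, hmem⟩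
  constructor
  · obtain ⟨i1, hi1, hc⟩ := hAne.csInf_mem hfin
    show lo ≤ sInf A
    by_contra hlt
    rw [not_le] at hlt
    rw [cnt_eq_card] at hc
    have hdisj : Disjoint (univ.filter (fun j => x j ≤ sInf A)) Gd := by
      rw [Finset.disjoint_left]
      intro j hj hj'
      have a1 := (Finset.mem_filter.1 hj).2
      have a2 := (Finset.mem_filter.1 hj').2.1
      linarith
    have hcard := Finset.card_le_univ ((univ.filter (fun j => x j ≤ sInf A)) ∪ Gd)
    rw [Finset.card_union_of_disjoint hdisj, Fintype.card_fin] at hcard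
    omega
  · exact le_trans (csInf_le hfin.bddBelow hmem) (Finset.mem_filter.1 hi0).2.2

theorem median_amplify [Nonempty S] (X : S → ℝ) (lo hi : ℝ) {p : ℝ}
    (hp : prob S (fun ω => ¬ (lo ≤ X ω ∧ X ω ≤ hi)) ≤ p) (r : ℕ) :
    1 - 2 ^ (2 * r + 1) * p ^ (r + 1) ≤ prob (Fin (2 * r + 1) → S)
      (fun ω => lo ≤ median r (fun i => X (ω i)) ∧ median r (fun i => X (ω i)) ≤ hi) := by
  have h1 := prob_many_bad (fun ω => ¬ (lo ≤ X ω ∧ X ω ≤ hi)) hp r
  have h2 : prob (Fin (2 * r + 1) → S)
      (fun ω => ¬ (lo ≤ median r (fun i => X (ω i)) ∧ median r (fun i => X (ω i)) ≤ hi)) ≤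
      prob (Fin (2 * r + 1) → S)
        (fun ω => r + 1 ≤ cnt (fun i => ¬ (lo ≤ X (ω i) ∧ X (ω i) ≤ hi))) := by
    apply prob_mono
    intro ω hω
    by_contra hlt
    apply hω
    apply median_mem
    have hsum := cnt_add_not (fun i : Fin (2 * r + 1) => lo ≤ X (ω i) ∧ X (ω i) ≤ hi)
    rw [Fintype.card_fin] at hsum
    omega
  rw [prob_compl] at h2
  linarith

end Vale.Agent.P308
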