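import Vale.Agent.P308.FprasMain
import Vale.Agent.P308.Median

/-!
# The approximation scheme with success probability `1 - δ`
-/

namespace Vale.Agent.P308

open Finset Vale.Agent.P335

variable {n : ℕ}

/-- the seeds of one run of the estimator -/
abbrev AlgSeed (n T s : ℕ) : Type := Fin (n ^ 3) → StageSeed n T s

noncomputable instance instFintypeAlgSeed (n T s : ℕ) : Fintype (AlgSeed n T s) := inferInstance

theorem fpras_fail (hn : 4 ≤ n) (d : Fin n → ℕ) (hd : ∀ v, d v ≤ n - 1) (hne : Nonempty (Omega d))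
    (ε : ℝ) (hε0 : 0 < ε) (hε1 : ε ≤ 1) (q : ℝ) (s κ T : ℕ)
    (hs : 2592 * (n : ℝ) ^ 17 ≤ q * (s * ε ^ 2))
    (hκ : 36 * (n : ℝ) ^ 6 ≤ ε * 2 ^ κ) (hT : 2 * n ^ 4 * (n ^ 2 + 2 * κ) ≤ T) :
    1 - q ≤ prob (Fin (n ^ 3) → StageSeed n T s) (fun ω =>
      (1 - ε) * (Fintype.card (PM (gadget d)) : ℝ) ≤ fprasOut d T s ω ∧
      fprasOut d T s ω ≤ (1 + ε) * (Fintype.card (PM (gadget d)) : ℝ)) := by
  have := seed_nonempty hn
  have hn' : (4 : ℝ) ≤ n := by exact_mod_cast hn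
  have hn0 : (0 : ℝ) < n := by linarith
  set β : ℝ := ε / (36 * (n : ℝ) ^ 5) with hβ
  set γ : ℝ := ε / (2 * (n : ℝ) ^ 3) with hγ
  have hβ0 : 0 < β := by rw [hβ]; positivity
  have hγ0 : 0 < γ := by rw [hγ]; positivity
  have hs0 : 0 < s := by
    by_contra h
    have : s = 0 := by omega
    rw [this] at hs
    simp at hs
    have : 0 < 2592 * (n : ℝ) ^ 17 := by positivity
    linarith
  have hs' : (0 : ℝ) < s := by exact_mod_cast hs0
  have hκ' : (n : ℝ) / 2 ^ κ ≤ β := by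
    rw [hβ, div_le_div_iff₀ (by positivity) (by positivity)]
    calc (n : ℝ) * (36 * (n : ℝ) ^ 5) = 36 * (n : ℝ) ^ 6 := by ring
      _ ≤ _ := hκ
  set α : ℝ := β + n / 2 ^ κ with hα
  have hα0 : 0 ≤ α := by rw [hα]; positivity
  have hαγ : 9 * (n : ℝ) ^ 2 * α ≤ γ := by
    have h1 : α ≤ 2 * β := by rw [hα]; linarith
    calc 9 * (n : ℝ) ^ 2 * α ≤ 9 * (n : ℝ) ^ 2 * (2 * β) :=
          mul_le_mul_of_nonneg_left h1 (by positivity)
      _ = γ := by
          rw [hβ, hγ]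
          field_simp
          ring
  have hγ1 : γ ≤ 1 := by
    rw [hγ, div_le_one (by positivity)]
    have : (1 : ℝ) ≤ (n : ℝ) ^ 3 := one_le_pow₀ (by linarith)
    linarith
  have hKγ : ((n ^ 3 : ℕ) : ℝ) * γ ≤ ε / 2 := by
    rw [hγ]
    push_cast
    apply le_of_eq
    field_simp
  have hη := fun e : Fin n → ℕ => prob_not_good hn e T s κ hT hs0 hβ0
  have hbad := prob_not_allGood hn (1 / (2 * (n : ℝ) ^ 2)) α T s hη (n ^ 3) d
  have hsmall : ((n ^ 3 : ℕ) : ℝ) * (2 * (n : ℝ) ^ 2 * ((n : ℝ) ^ 2 / (s * β ^ 2))) ≤ q := by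
    have e1 : ((n ^ 3 : ℕ) : ℝ) * (2 * (n : ℝ) ^ 2 * ((n : ℝ) ^ 2 / (s * β ^ 2))) =
        2 * (n : ℝ) ^ 7 / (s * β ^ 2) := by
      push_cast
      field_simp
    rw [e1, div_le_iff₀ (by positivity), hβ]
    have e2 : q * (s * (ε / (36 * (n : ℝ) ^ 5)) ^ 2) = q * (s * ε ^ 2) / (1296 * (n : ℝ) ^ 10) := by
      field_simp
      ring
    rw [e2, le_div_iff₀ (by positivity)]
    calc 2 * (n : ℝ) ^ 7 * (1296 * (n : ℝ) ^ 10) = 2592 * (n : ℝ) ^ 17 := by ring
      _ ≤ _ := hs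
  have hgood : 1 - q ≤ prob (Fin (n ^ 3) → StageSeed n T s)
      (fun ω => AllGood (1 / (2 * (n : ℝ) ^ 2)) α T s (n ^ 3) d ω) := by
    have h1 := prob_compl (S := Fin (n ^ 3) → StageSeed n T s)
      (fun ω => AllGood (1 / (2 * (n : ℝ) ^ 2)) α T s (n ^ 3) d ω)
    linarith
  refine le_trans hgood (prob_mono ?_)
  intro ω hω
  obtain ⟨c1, c2⟩ := alg_correct hn hα0 hαγ hγ1 T s (n ^ 3) d ω hne (Nat.sub_le _ _) hω
  have hup := pow_upper (n ^ 3) hγ0.le hKγ hε0.le hε1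
  have hlo := pow_lower (n ^ 3) hγ1 hKγ hε0.le
  have hF : (0 : ℝ) ≤ ∏ v, ((n - 1 - d v).factorial : ℝ) :=
    Finset.prod_nonneg (fun v _ => Nat.cast_nonneg _)
  have hC : (0 : ℝ) ≤ (Fintype.card (Omega d) : ℝ) := Nat.cast_nonneg _
  have hZ : (Fintype.card (PM (gadget d)) : ℝ) =
      (∏ v, ((n - 1 - d v).factorial : ℝ)) * (Fintype.card (Omega d) : ℝ) := by
    rw [card_PM hd]
    push_cast
    ring
  rw [hZ]
  unfold fprasOut
  constructor
  · calc (1 - ε) * ((∏ v, ((n - 1 - d v).factorial : ℝ)) * (Fintype.card (Omega d) : ℝ))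
        = (∏ v, ((n - 1 - d v).factorial : ℝ)) * ((1 - ε) * (Fintype.card (Omega d) : ℝ)) := by ring
      _ ≤ _ := mul_le_mul_of_nonneg_left
          (le_trans (mul_le_mul_of_nonneg_right hlo hC) c1) hF
  · calc _ ≤ (∏ v, ((n - 1 - d v).factorial : ℝ)) * ((1 + ε) * (Fintype.card (Omega d) : ℝ)) :=
          mul_le_mul_of_nonneg_left (le_trans c2 (mul_le_mul_of_nonneg_right hup hC)) hF
      _ = _ := by ring


open Classical in
/-- the final output: `0` if `d` is not graphical, else the median of `2r+1` independent runs -/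
noncomputable def fprasMedian (d : Fin n → ℕ) (T s r : ℕ) (ω : Fin (2 * r + 1) → AlgSeed n T s) :
    ℝ :=
  if Nonempty (Omega d) then median r (fun i => fprasOut d T s (ω i)) else 0

theorem prob_true (S : Type*) [Fintype S] [Nonempty S] : prob S (fun _ => True) = 1 := by
  unfold prob
  rw [ex_congr (fun _ => ind_pos trivial), ex_const]

theorem fpras_delta (hn : 4 ≤ n) (d : Fin n → ℕ) (hd : ∀ v, d v ≤ n - 1)
    (ε : ℝ) (hε0 : 0 < ε) (hε1 : ε ≤ 1) (δ : ℝ) (hδ : 0 < δ) (s κ T r : ℕ)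
    (hs : 41472 * (n : ℝ) ^ 17 ≤ s * ε ^ 2) (hκ : 36 * (n : ℝ) ^ 6 ≤ ε * 2 ^ κ)
    (hT : 2 * n ^ 4 * (n ^ 2 + 2 * κ) ≤ T) (hr : 1 ≤ δ * 2 ^ (2 * r + 3)) :
    1 - δ ≤ prob (Fin (2 * r + 1) → AlgSeed n T s) (fun ω =>
      (1 - ε) * (Fintype.card (PM (gadget d)) : ℝ) ≤ fprasMedian d T s r ω ∧
      fprasMedian d T s r ω ≤ (1 + ε) * (Fintype.card (PM (gadget d)) : ℝ)) := by
  have := seed_nonempty hn
  by_cases hne : Nonempty (Omega d)
  · have h1 := fpras_fail hn d hd hne ε hε0 hε1 (1 / 16) s κ T (by linarith) hκ hT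
    have h2 : prob (AlgSeed n T s) (fun ω =>
        ¬ ((1 - ε) * (Fintype.card (PM (gadget d)) : ℝ) ≤ fprasOut d T s ω ∧
        fprasOut d T s ω ≤ (1 + ε) * (Fintype.card (PM (gadget d)) : ℝ))) ≤ 1 / 16 := by
      rw [prob_compl]
      linarith
    have h3 := median_amplify (fprasOut d T s) _ _ h2 r
    have h4 : (2 : ℝ) ^ (2 * r + 1) * (1 / 16) ^ (r + 1) ≤ δ := by
      have e1 : (2 : ℝ) ^ (2 * r + 1) * (1 / 16) ^ (r + 1) = 1 / 2 ^ (2 * r + 3) := by
        have : (16 : ℝ) = 2 ^ 4 := by norm_num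
        rw [one_div_pow, this, ← pow_mul, mul_one_div, div_eq_div_iff (by positivity)
          (by positivity), one_mul, ← pow_add]
        congr 1
        ring
      rw [e1, div_le_iff₀ (by positivity)]
      exact hr
    refine le_trans (by linarith) (le_trans h3 (le_of_eq ?_))
    unfold fprasMedian
    simp only [hne, if_true]
  · have hZ : (Fintype.card (PM (gadget d)) : ℝ) = 0 := by
      rw [card_PM hd]
      rw [not_nonempty_iff] at hne
      simp
    have h1 : ∀ ω : Fin (2 * r + 1) → AlgSeed n T s, True →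
        ((1 - ε) * (Fintype.card (PM (gadget d)) : ℝ) ≤ fprasMedian d T s r ω ∧
        fprasMedian d T s r ω ≤ (1 + ε) * (Fintype.card (PM (gadget d)) : ℝ)) := by
      intro ω _
      unfold fprasMedian
      simp only [hne, if_false, hZ, mul_zero, le_refl, and_self]
    have h2 := prob_mono h1
    rw [prob_true] at h2
    linarith

end Vale.Agent.P308
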