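import Vale.Agent.P308.Fpras

/-!
# Correctness of the estimator on good seeds
-/

namespace Vale.Agent.P308

open Finset Vale.Agent.P335

variable {n : ℕ}

theorem valid_step {e : Fin n → ℕ} {u w : Fin n} (hv : Valid e u w) (he : Nonempty (Omega e))
    (hpos : 0 < meanExcess e w u) :
    Nonempty (Omega (shift e u w)) ∧
    (Fintype.card (Omega e) : ℝ) = (Fintype.card (Omega (shift e u w)) : ℝ) *
      (meanExcess (shift e u w) u w / meanExcess e w u) ∧
    2 ≤ meanExcess (shift e u w) u w ∧ pot e + 2 ≤ pot (shift e u w) := by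
  obtain ⟨hid, h2, hpot⟩ := step_facts e u w hv.1 hv.2.1 hv.2.2
  have hc0 : (0 : ℝ) < (Fintype.card (Omega e) : ℝ) := by exact_mod_cast Fintype.card_pos
  have hid' : ∑ G : Omega e, (excess G.1 w u : ℝ) =
      ∑ G : Omega (shift e u w), (excess G.1 u w : ℝ) := by exact_mod_cast hid
  have hS : 0 < ∑ G : Omega e, (excess G.1 w u : ℝ) := by
    unfold meanExcess at hpos
    exact (div_pos_iff_of_pos_right hc0).1 hpos
  have hne : Nonempty (Omega (shift e u w)) := by
    by_contra h
    rw [not_nonempty_iff] at h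
    rw [hid'] at hS
    simp at hS
  have hc0' : (0 : ℝ) < (Fintype.card (Omega (shift e u w)) : ℝ) := by
    exact_mod_cast Fintype.card_pos
  refine ⟨hne, ?_, ?_, hpot⟩
  · unfold meanExcess
    rw [hid'] at hS ⊢
    set S : ℝ := ∑ G : Omega (shift e u w), (excess G.1 u w : ℝ) with hSdef
    field_simp
  · unfold meanExcess
    rw [le_div_iff₀ hc0']
    calc 2 * (Fintype.card (Omega (shift e u w)) : ℝ)
        = ∑ _G : Omega (shift e u w), (2 : ℝ) := by simp; ring
      _ ≤ _ := Finset.sum_le_sum (fun G _ => by exact_mod_cast h2 G)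

theorem card_eq_one_of_small {e : Fin n → ℕ} (he : Nonempty (Omega e))
    (h : ∀ u w, Valid e u w → meanExcess e w u < 1 / (n : ℝ) ^ 2) :
    Fintype.card (Omega e) = 1 := by
  by_contra hne
  have hpos : 0 < Fintype.card (Omega e) := Fintype.card_pos
  obtain ⟨u, w, h1, h2, h3, h4⟩ := good_pair e (by omega)
  exact absurd (h u w ⟨h1, h2, h3⟩) (not_lt.2 h4)

theorem card_eq_one_of_pot {e : Fin n → ℕ} (he : Nonempty (Omega e)) (hk : n ^ 3 ≤ pot e) :
    Fintype.card (Omega e) = 1 := by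
  by_contra hne
  have hpos : 0 < Fintype.card (Omega e) := Fintype.card_pos
  obtain ⟨u, w, h1, h2, h3, h4⟩ := good_pair e (by omega)
  have hn : 0 < n := u.pos
  have hm : 0 < meanExcess e w u := lt_of_lt_of_le (by positivity) h4
  obtain ⟨⟨G'⟩, -, -, hp⟩ := valid_step ⟨h1, h2, h3⟩ he hm
  have := pot_le _ G'
  omega

theorem ratio_bounds {A B a b α γ N : ℝ} (hN : 1 ≤ N) (hA : 2 ≤ A) (hB : 1 ≤ 4 * N * B)
    (hα0 : 0 ≤ α) (hα : 9 * N * α ≤ γ) (hγ : γ ≤ 1) (ha : |a - A| ≤ α) (hb : |b - B| ≤ α)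
    (hb0 : 0 < b) : (1 - γ) * (A / B) ≤ a / b ∧ a / b ≤ (1 + γ) * (A / B) := by
  have hB0 : 0 < B := by
    by_contra h
    have : 4 * N * B ≤ 0 := mul_nonpos_of_nonneg_of_nonpos (by linarith) (not_lt.1 h)
    linarith
  have hAB : 0 < A * B := by positivity
  have h1 : B + 2 * A ≤ 9 * N * (A * B) := by
    have e1 : B ≤ N * (A * B) := by
      have : 1 ≤ N * A := by nlinarith
      nlinarith
    have e2 : 2 * A ≤ 8 * N * (A * B) := by nlinarith
    linarith
  have key : α * (B + 2 * A) ≤ γ * (A * B) := by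
    calc α * (B + 2 * A) ≤ α * (9 * N * (A * B)) := mul_le_mul_of_nonneg_left h1 hα0
      _ = (9 * N * α) * (A * B) := by ring
      _ ≤ γ * (A * B) := mul_le_mul_of_nonneg_right hα hAB.le
  obtain ⟨ha1, ha2⟩ := abs_le.1 ha
  obtain ⟨hb1, hb2⟩ := abs_le.1 hb
  have hγ0 : 0 ≤ γ := le_trans (by positivity) hα
  constructor
  · rw [← mul_div_assoc, div_le_div_iff₀ hB0 hb0]
    have e1 : (1 - γ) * A * b ≤ (1 - γ) * A * (B + α) :=
      mul_le_mul_of_nonneg_left (by linarith) (mul_nonneg (by linarith) (by linarith))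
    have e2 : (A - α) * B ≤ a * B := mul_le_mul_of_nonneg_right (by linarith) hB0.le
    have e3 : 0 ≤ γ * A * α := by positivity
    nlinarith
  · rw [← mul_div_assoc, div_le_div_iff₀ hb0 hB0]
    have e1 : (1 + γ) * A * (B - α) ≤ (1 + γ) * A * b :=
      mul_le_mul_of_nonneg_left (by linarith) (by positivity)
    have e2 : a * B ≤ (A + α) * B := mul_le_mul_of_nonneg_right (by linarith) hB0.le
    have e3 : γ * A * α ≤ A * α := by
      have : 0 ≤ A * α := by positivity
      nlinarith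
    nlinarith

theorem choosePair_some {θ : ℝ} {T s : ℕ} {e : Fin n → ℕ} {ω : StageSeed n T s}
    {p : Fin n × Fin n} (h : choosePair θ T s e ω = some p) :
    Valid e p.1 p.2 ∧ θ ≤ bHat T s e ω p.1 p.2 := by
  unfold choosePair at h
  split_ifs at h with hex
  have : Classical.choose hex = p := Option.some.inj h
  rw [← this]
  exact Classical.choose_spec hex

theorem choosePair_none {θ : ℝ} {T s : ℕ} {e : Fin n → ℕ} {ω : StageSeed n T s}
    (h : choosePair θ T s e ω = none) (u w : Fin n) (hv : Valid e u w) :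
    bHat T s e ω u w < θ := by
  unfold choosePair at h
  split_ifs at h with hex
  by_contra hcon
  exact hex ⟨(u, w), hv, not_lt.1 hcon⟩

theorem alg_correct (hn : 4 ≤ n) {α γ : ℝ} (hα0 : 0 ≤ α) (hα : 9 * (n : ℝ) ^ 2 * α ≤ γ)
    (hγ : γ ≤ 1) (T s : ℕ) :
    ∀ (k : ℕ) (e : Fin n → ℕ) (ω : Fin k → StageSeed n T s), Nonempty (Omega e) →
      n ^ 3 - pot e ≤ k → AllGood (1 / (2 * (n : ℝ) ^ 2)) α T s k e ω →
      (1 - γ) ^ k * (Fintype.card (Omega e) : ℝ) ≤ alg (1 / (2 * (n : ℝ) ^ 2)) T s k e ω ∧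
      alg (1 / (2 * (n : ℝ) ^ 2)) T s k e ω ≤ (1 + γ) ^ k * (Fintype.card (Omega e) : ℝ) := by
  have hn' : (4 : ℝ) ≤ n := by exact_mod_cast hn
  have hN : (1 : ℝ) ≤ (n : ℝ) ^ 2 := by nlinarith
  have hN0 : (0 : ℝ) < (n : ℝ) ^ 2 := by linarith
  have hγ0 : 0 ≤ γ := le_trans (by positivity) hα
  set θ : ℝ := 1 / (2 * (n : ℝ) ^ 2) with hθ
  have hθN : (n : ℝ) ^ 2 * θ = 1 / 2 := by
    rw [hθ]
    field_simp
  have hθ0 : 0 < θ := by rw [hθ]; positivity
  intro k
  induction k with
  | zero =>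
    intro e ω he hk _
    have h1 := card_eq_one_of_pot he (by
      have := pot_le e he.some
      omega)
    simp [alg, h1]
  | succ k ih =>
    intro e ω he hk hg
    obtain ⟨hG, hrest⟩ := hg
    cases hc : choosePair θ T s e (ω 0) with
    | none =>
      have h1 : Fintype.card (Omega e) = 1 := by
        apply card_eq_one_of_small he
        intro u w hv
        have h2 := choosePair_none hc u w hv
        have h3 := abs_le.1 ((hG u w).1 he)
        rw [lt_div_iff₀ hN0]
        nlinarith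
      have h2 : alg θ T s (k + 1) e ω = 1 := by
        simp only [alg, hc]
      rw [h2, h1]
      simp only [Nat.cast_one, mul_one]
      exact ⟨pow_le_one₀ (by linarith) (by linarith), one_le_pow₀ (by linarith)⟩
    | some p =>
      rw [hc] at hrest
      have hrest' : AllGood θ α T s k (shift e p.1 p.2) (fun i => ω i.succ) := hrest
      obtain ⟨hv, hb⟩ := choosePair_some hc
      have hbB := (hG p.1 p.2).1 he
      have hbB' := abs_le.1 hbB
      have hB4 : 1 ≤ 4 * (n : ℝ) ^ 2 * meanExcess e p.2 p.1 := by nlinarith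
      have hBpos : 0 < meanExcess e p.2 p.1 := by
        by_contra h
        have : 4 * (n : ℝ) ^ 2 * meanExcess e p.2 p.1 ≤ 0 :=
          mul_nonpos_of_nonneg_of_nonpos (by positivity) (not_lt.1 h)
        linarith
      obtain ⟨hne', hcard, hA2, hpot⟩ := valid_step hv he hBpos
      have haA := (hG p.1 p.2).2 hne'
      obtain ⟨r1, r2⟩ := ratio_bounds hN hA2 hB4 hα0 hα hγ haA hbB (lt_of_lt_of_le hθ0 hb)
      obtain ⟨i1, i2⟩ := ih (shift e p.1 p.2) (fun i => ω i.succ) hne' (by omega) hrest'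
      have h2 : alg θ T s (k + 1) e ω = aHat T s e (ω 0) p.1 p.2 / bHat T s e (ω 0) p.1 p.2 *
          alg θ T s k (shift e p.1 p.2) (fun i => ω i.succ) := by
        simp only [alg, hc]
      rw [h2, hcard]
      set A := meanExcess (shift e p.1 p.2) p.1 p.2
      set B := meanExcess e p.2 p.1
      set C : ℝ := (Fintype.card (Omega (shift e p.1 p.2)) : ℝ)
      have hC : 0 ≤ C := Nat.cast_nonneg _
      have hAB : 0 ≤ A / B := div_nonneg (by linarith) hBpos.le
      constructor
      · calc (1 - γ) ^ (k + 1) * (C * (A / B)) = ((1 - γ) * (A / B)) * ((1 - γ) ^ k * C) := by ring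
          _ ≤ _ := mul_le_mul r1 i1 (mul_nonneg (pow_nonneg (by linarith) k) hC)
              (le_trans (mul_nonneg (by linarith) hAB) r1)
      · calc _ ≤ ((1 + γ) * (A / B)) * ((1 + γ) ^ k * C) :=
              mul_le_mul r2 i2 (le_trans (mul_nonneg (pow_nonneg (by linarith) k) hC) i1)
                (mul_nonneg (by linarith) hAB)
          _ = (1 + γ) ^ (k + 1) * (C * (A / B)) := by ring

end Vale.Agent.P308
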