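import Vale.Agent.P308.FprasDet

/-!
# The randomized approximation scheme for `Z(T(n,d))`
-/

namespace Vale.Agent.P308

open Finset Vale.Agent.P335

variable {n : ℕ}

/-- the output of the approximation scheme for the number of perfect matchings of `T(n,d)` -/
noncomputable def fprasOut (d : Fin n → ℕ) (T s : ℕ) (ω : Fin (n ^ 3) → StageSeed n T s) : ℝ :=
  (∏ v, ((n - 1 - d v).factorial : ℝ)) * alg (1 / (2 * (n : ℝ) ^ 2)) T s (n ^ 3) d ω

theorem pow_upper {γ ε : ℝ} (K : ℕ) (hγ0 : 0 ≤ γ) (hK : K * γ ≤ ε / 2) (hε0 : 0 ≤ ε) (hε1 : ε ≤ 1) :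
    (1 + γ) ^ K ≤ 1 + ε := by
  have h1 : (1 + γ) ^ K ≤ Real.exp (K * γ) := by
    rw [Real.exp_nat_mul]
    apply pow_le_pow_left₀ (by linarith)
    have := Real.add_one_le_exp γ
    linarith
  have h2 : Real.exp (K * γ) ≤ Real.exp (ε / 2) := Real.exp_le_exp.2 hK
  have h3 : Real.exp (ε / 2) ≤ 1 / (1 - ε / 2) :=
    Real.exp_bound_div_one_sub_of_interval (by linarith) (by linarith)
  have h4 : 1 / (1 - ε / 2) ≤ 1 + ε := by
    rw [div_le_iff₀ (by linarith)]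
    nlinarith
  linarith

theorem pow_lower {γ ε : ℝ} (K : ℕ) (hγ1 : γ ≤ 1) (hK : K * γ ≤ ε / 2) (hε0 : 0 ≤ ε) :
    1 - ε ≤ (1 - γ) ^ K := by
  have h1 := one_add_mul_le_pow (a := -γ) (by linarith) K
  have h2 : (1 + -γ) = 1 - γ := by ring
  rw [h2] at h1
  nlinarith

theorem fpras_main (hn : 4 ≤ n) (d : Fin n → ℕ) (hd : ∀ v, d v ≤ n - 1) (hne : Nonempty (Omega d))
    (ε : ℝ) (hε0 : 0 < ε) (hε1 : ε ≤ 1) (s κ T : ℕ) (hs : 10368 * (n : ℝ) ^ 17 ≤ s * ε ^ 2)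
    (hκ : 36 * (n : ℝ) ^ 6 ≤ ε * 2 ^ κ) (hT : 2 * n ^ 4 * (n ^ 2 + 2 * κ) ≤ T) :
    3 / 4 ≤ prob (Fin (n ^ 3) → StageSeed n T s) (fun ω =>
      (1 - ε) * (Fintype.card (PM (gadget d)) : ℝ) ≤ fprasOut d T s ω ∧
      fprasOut d T s ω ≤ (1 + ε) * (Fintype.card (PM (gadget d)) : ℝ)) := by
  have := seed_nonempty hn
  have hn' : (4 : ℝ) ≤ n := by exact_mod_cast hn
  have hn0 : (0 : ℝ) < n := by linarith
  set β : ℝ := ε / (36 * (n : ℝ) ^ 5) with hβ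
  set γ : ℝ := ε / (2 * (n : ℝ) ^ 3) with hγ
  have hβ0 : 0 < β := by rw [hβ]; positivity
  have hγ0 : 0 < γ := by rw [hγ]; positivity
  have hs0 : 0 < s := by
    by_contra h
    have : s = 0 := by omega
    rw [this] at hs
    simp at hs
    have : 0 < 10368 * (n : ℝ) ^ 17 := by positivity
    linarith
  have hs' : (0 : ℝ) < s := by exact_mod_cast hs0
  have hκ' : (n : ℝ) / 2 ^ κ ≤ β := by
    rw [hβ, div_le_div_iff₀ (by positivity) (by positivity)]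
    calc (n : ℝ) * (36 * (n : ℝ) ^ 5) = 36 * (n : ℝ) ^ 6 := by ring
      _ ≤ _ := hκ
  set α : ℝ := β + n / 2 ^ κ with hα
  have hα0 : 0 ≤ α := by rw [hα]; positivity
  have hαγ : 9 * (n : ℝ) ^ 2 * α ≤ γ := by
    have h1 : α ≤ 2 * β := by rw [hα]; linarith
    calc 9 * (n : ℝ) ^ 2 * α ≤ 9 * (n : ℝ) ^ 2 * (2 * β) :=
          mul_le_mul_of_nonneg_left h1 (by positivity)
      _ = γ := by
          rw [hβ, hγ]
          field_simp
          ring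
  have hγ1 : γ ≤ 1 := by
    rw [hγ, div_le_one (by positivity)]
    have : (1 : ℝ) ≤ (n : ℝ) ^ 3 := one_le_pow₀ (by linarith)
    linarith
  have hKγ : ((n ^ 3 : ℕ) : ℝ) * γ ≤ ε / 2 := by
    rw [hγ]
    push_cast
    apply le_of_eq
    field_simp
  have hη := fun e : Fin n → ℕ => prob_not_good hn e T s κ hT hs0 hβ0
  have hbad := prob_not_allGood hn (1 / (2 * (n : ℝ) ^ 2)) α T s hη (n ^ 3) d
  have hsmall : ((n ^ 3 : ℕ) : ℝ) * (2 * (n : ℝ) ^ 2 * ((n : ℝ) ^ 2 / (s * β ^ 2))) ≤ 1 / 4 := by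
    have e1 : ((n ^ 3 : ℕ) : ℝ) * (2 * (n : ℝ) ^ 2 * ((n : ℝ) ^ 2 / (s * β ^ 2))) =
        2 * (n : ℝ) ^ 7 / (s * β ^ 2) := by
      push_cast
      field_simp
    rw [e1, div_le_iff₀ (by positivity), hβ]
    have e2 : 1 / 4 * (s * (ε / (36 * (n : ℝ) ^ 5)) ^ 2) = s * ε ^ 2 / (5184 * (n : ℝ) ^ 10) := by
      field_simp
      ring
    rw [e2, le_div_iff₀ (by positivity)]
    calc 2 * (n : ℝ) ^ 7 * (5184 * (n : ℝ) ^ 10) = 10368 * (n : ℝ) ^ 17 := by ring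
      _ ≤ _ := hs
  have hgood : 3 / 4 ≤ prob (Fin (n ^ 3) → StageSeed n T s)
      (fun ω => AllGood (1 / (2 * (n : ℝ) ^ 2)) α T s (n ^ 3) d ω) := by
    have h1 := prob_compl (S := Fin (n ^ 3) → StageSeed n T s)
      (fun ω => AllGood (1 / (2 * (n : ℝ) ^ 2)) α T s (n ^ 3) d ω)
    linarith
  refine le_trans hgood (prob_mono ?_)
  intro ω hω
  obtain ⟨c1, c2⟩ := alg_correct hn hα0 hαγ hγ1 T s (n ^ 3) d ω hne (Nat.sub_le _ _) hω
  have hup := pow_upper (n ^ 3) hγ0.le hKγ hε0.le hε1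
  have hlo := pow_lower (n ^ 3) hγ1 hKγ hε0.le
  have hF : (0 : ℝ) ≤ ∏ v, ((n - 1 - d v).factorial : ℝ) :=
    Finset.prod_nonneg (fun v _ => Nat.cast_nonneg _)
  have hC : (0 : ℝ) ≤ (Fintype.card (Omega d) : ℝ) := Nat.cast_nonneg _
  have hZ : (Fintype.card (PM (gadget d)) : ℝ) =
      (∏ v, ((n - 1 - d v).factorial : ℝ)) * (Fintype.card (Omega d) : ℝ) := by
    rw [card_PM hd]
    push_cast
    ring
  rw [hZ]
  unfold fprasOut
  constructor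
  · calc (1 - ε) * ((∏ v, ((n - 1 - d v).factorial : ℝ)) * (Fintype.card (Omega d) : ℝ))
        = (∏ v, ((n - 1 - d v).factorial : ℝ)) * ((1 - ε) * (Fintype.card (Omega d) : ℝ)) := by ring
      _ ≤ _ := mul_le_mul_of_nonneg_left
          (le_trans (mul_le_mul_of_nonneg_right hlo hC) c1) hF
  · calc _ ≤ (∏ v, ((n - 1 - d v).factorial : ℝ)) * ((1 + ε) * (Fintype.card (Omega d) : ℝ)) :=
          mul_le_mul_of_nonneg_left (le_trans c2 (mul_le_mul_of_nonneg_right hup hC)) hF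
      _ = _ := by ring

end Vale.Agent.P308
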