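import Vale.Agent.P308.Matching

/-!
# Tutte's gadget graph `T(n,d)` for the `d`-factors of the complete graph
-/

namespace Vale.Agent.P308

open Finset

/-- the ports: one vertex `(v,u)` for every ordered pair of distinct elements of `Fin n` -/
abbrev Port (n : ℕ) : Type := {p : Fin n × Fin n // p.1 ≠ p.2}

/-- the dummies: `n - 1 - d v` vertices `(v,k)` for every `v` -/
abbrev Dummy {n : ℕ} (d : Fin n → ℕ) : Type := Σ v : Fin n, Fin (n - 1 - d v)

/-- Tutte's gadget graph: the port `(v,u)` is joined to the port `(u,v)` and to all dummies `(v,k)`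
of the same `v`; there are no other edges. -/
def gadget {n : ℕ} (d : Fin n → ℕ) : SimpleGraph (Port n ⊕ Dummy d) where
  Adj x y :=
    match x, y with
    | Sum.inl p, Sum.inl q => q.1 = (p.1.2, p.1.1)
    | Sum.inl p, Sum.inr z => p.1.1 = z.1
    | Sum.inr z, Sum.inl p => p.1.1 = z.1
    | Sum.inr _, Sum.inr _ => False
  symm := ⟨by
    intro x y h
    rcases x with p | z <;> rcases y with q | w
    · show p.1 = (q.1.2, q.1.1)
      have h' : q.1 = (p.1.2, p.1.1) := h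
      rw [h']
    · exact h
    · exact h
    · exact h⟩
  loopless := ⟨by
    intro x h
    rcases x with p | z
    · have h' : p.1 = (p.1.2, p.1.1) := h
      exact p.2 (congrArg Prod.fst h')
    · exact h⟩

/-- the spanning subgraph of the complete graph read off from a set `M` of edges of the gadget:
`uv` is an edge iff the port-port edge `(u,v)(v,u)` belongs to `M` -/
def factorOf {n : ℕ} {d : Fin n → ℕ} (M : Finset (Sym2 (Port n ⊕ Dummy d))) :
    SimpleGraph (Fin n) where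
  Adj u v := ∃ h : u ≠ v,
    s((Sum.inl ⟨(u, v), h⟩ : Port n ⊕ Dummy d), Sum.inl ⟨(v, u), h.symm⟩) ∈ M
  symm := ⟨by
    rintro u v ⟨h, e⟩
    exact ⟨h.symm, by rwa [Sym2.eq_swap]⟩⟩
  loopless := ⟨fun u ⟨h, _⟩ => h rfl⟩

variable {n : ℕ} {d : Fin n → ℕ}

/-- `m` matches the ports `(u,v)`, `(v,u)` exactly along the edges of `G` -/
def Compat (G : SimpleGraph (Fin n)) (m : Port n ⊕ Dummy d → Port n ⊕ Dummy d) : Prop :=
  ∀ (u v : Fin n) (h : u ≠ v), G.Adj u v ↔ m (Sum.inl ⟨(u, v), h⟩) = Sum.inl ⟨(v, u), h.symm⟩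

theorem factorOf_eq_iff (M : PM (gadget d)) (G : SimpleGraph (Fin n)) :
    factorOf M.1 = G ↔ Compat G (mate M.2) := by
  constructor
  · rintro rfl u v h
    constructor
    · rintro ⟨_, e⟩
      exact eq_mate M.2 e
    · intro e
      exact ⟨h, (mem_iff_mate M.2).2 e⟩
  · intro hc
    ext u v
    constructor
    · rintro ⟨h, e⟩
      exact (hc u v h).2 (eq_mate M.2 e)
    · intro hG
      exact ⟨hG.ne, (mem_iff_mate M.2).2 ((hc u v hG.ne).1 hG)⟩

/-- the non-neighbours of `v` -/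
abbrev NonNbr (G : SimpleGraph (Fin n)) (v : Fin n) : Type := {u : Fin n // u ≠ v ∧ ¬ G.Adj v u}

theorem dummy_mate {m : Port n ⊕ Dummy d → Port n ⊕ Dummy d} (hm : IsInvol (gadget d) m)
    (v : Fin n) (k : Fin (n - 1 - d v)) :
    ∃ u, ∃ h : v ≠ u, m (Sum.inr ⟨v, k⟩) = Sum.inl ⟨(v, u), h⟩ := by
  have h1 := (hm (Sum.inr ⟨v, k⟩)).1
  generalize m (Sum.inr ⟨v, k⟩) = y at h1
  rcases y with p | z
  · obtain ⟨⟨a, b⟩, hp⟩ := p
    have h2 : a = v := h1
    subst h2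
    exact ⟨b, hp, rfl⟩
  · exact h1.elim

theorem port_mate {m : Port n ⊕ Dummy d → Port n ⊕ Dummy d} (hm : IsInvol (gadget d) m)
    (v u : Fin n) (h : v ≠ u) :
    m (Sum.inl ⟨(v, u), h⟩) = Sum.inl ⟨(u, v), h.symm⟩ ∨
      ∃ k, m (Sum.inl ⟨(v, u), h⟩) = Sum.inr ⟨v, k⟩ := by
  have h1 := (hm (Sum.inl ⟨(v, u), h⟩)).1
  generalize m (Sum.inl ⟨(v, u), h⟩) = y at h1
  rcases y with p | z
  · left
    have h2 : p.1 = (u, v) := h1
    exact congrArg Sum.inl (Subtype.ext h2)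
  · right
    obtain ⟨w, k⟩ := z
    have h2 : v = w := h1
    subst h2
    exact ⟨k, rfl⟩

/-- second coordinate of a port (junk on dummies) -/
def sndOf (x : Port n ⊕ Dummy d) : Fin n := Sum.elim (fun p => p.1.2) (fun z => z.1) x

theorem sndOf_spec {G : SimpleGraph (Fin n)} {m : Port n ⊕ Dummy d → Port n ⊕ Dummy d}
    (hm : IsInvol (gadget d) m) (hc : Compat G m) (v : Fin n) (k : Fin (n - 1 - d v)) :
    sndOf (m (Sum.inr ⟨v, k⟩)) ≠ v ∧ ¬ G.Adj v (sndOf (m (Sum.inr ⟨v, k⟩))) := by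
  obtain ⟨u, h, e⟩ := dummy_mate hm v k
  rw [e]
  refine ⟨h.symm, ?_⟩
  intro hG
  have h1 := (hc v u h).1 hG
  have h2 : m (Sum.inl ⟨(v, u), h⟩) = Sum.inr ⟨v, k⟩ := by rw [← e, (hm _).2]
  rw [h2] at h1
  exact Sum.inr_ne_inl h1

theorem mate_dummy_eq {m : Port n ⊕ Dummy d → Port n ⊕ Dummy d} (hm : IsInvol (gadget d) m)
    (v : Fin n) (k : Fin (n - 1 - d v)) (h : v ≠ sndOf (m (Sum.inr ⟨v, k⟩))) :
    m (Sum.inr ⟨v, k⟩) = Sum.inl ⟨(v, sndOf (m (Sum.inr ⟨v, k⟩))), h⟩ := by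
  obtain ⟨u, h', e⟩ := dummy_mate hm v k
  have : sndOf (m (Sum.inr ⟨v, k⟩)) = u := by rw [e]; rfl
  subst this
  exact e

/-- from an involution to the bijections dummies of `v` / non-neighbours of `v` -/
noncomputable def toBij {G : SimpleGraph (Fin n)} {m : Port n ⊕ Dummy d → Port n ⊕ Dummy d}
    (hm : IsInvol (gadget d) m) (hc : Compat G m) (v : Fin n) :
    Fin (n - 1 - d v) ≃ NonNbr G v :=
  Equiv.ofBijective (fun k => ⟨sndOf (m (Sum.inr ⟨v, k⟩)), sndOf_spec hm hc v k⟩) (by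
    constructor
    · intro k k' hk
      have h1 : sndOf (m (Sum.inr ⟨v, k⟩)) = sndOf (m (Sum.inr ⟨v, k'⟩)) := congrArg Subtype.val hk
      have e1 := mate_dummy_eq hm v k (sndOf_spec hm hc v k).1.symm
      have e2 := mate_dummy_eq hm v k' (sndOf_spec hm hc v k').1.symm
      have h2 : m (Sum.inr ⟨v, k⟩) = m (Sum.inr ⟨v, k'⟩) := by
        rw [e1, e2]
        exact congrArg Sum.inl (Subtype.ext (Prod.ext rfl h1))
      have h3 := congrArg m h2
      rw [(hm _).2, (hm _).2] at h3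
      have h4 := Sum.inr_injective h3
      simpa using h4
    · rintro ⟨u, hu, hG⟩
      rcases port_mate hm v u hu.symm with h1 | ⟨k, h1⟩
      · exact (hG ((hc v u hu.symm).2 h1)).elim
      · refine ⟨k, Subtype.ext ?_⟩
        show sndOf (m (Sum.inr ⟨v, k⟩)) = u
        rw [← h1, (hm _).2]
        rfl)

open Classical in
/-- from the bijections to the involution -/
noncomputable def ofBij (G : SimpleGraph (Fin n)) (e : ∀ v, Fin (n - 1 - d v) ≃ NonNbr G v) :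
    Port n ⊕ Dummy d → Port n ⊕ Dummy d
  | Sum.inl p =>
      if h : G.Adj p.1.1 p.1.2 then Sum.inl ⟨(p.1.2, p.1.1), p.2.symm⟩
      else Sum.inr ⟨p.1.1, (e p.1.1).symm ⟨p.1.2, p.2.symm, h⟩⟩
  | Sum.inr z => Sum.inl ⟨(z.1, (e z.1 z.2).1), (e z.1 z.2).2.1.symm⟩

theorem ofBij_isInvol (G : SimpleGraph (Fin n)) (e : ∀ v, Fin (n - 1 - d v) ≃ NonNbr G v) :
    IsInvol (gadget d) (ofBij G e) := by
  intro x
  rcases x with p | z
  · by_cases h : G.Adj p.1.1 p.1.2
    · have e1 : ofBij G e (Sum.inl p) = Sum.inl ⟨(p.1.2, p.1.1), p.2.symm⟩ := by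
        simp only [ofBij, dif_pos h]
      rw [e1]
      refine ⟨rfl, ?_⟩
      have h' : G.Adj p.1.2 p.1.1 := h.symm
      simp only [ofBij, dif_pos h']
    · have e1 : ofBij G e (Sum.inl p) =
          Sum.inr ⟨p.1.1, (e p.1.1).symm ⟨p.1.2, p.2.symm, h⟩⟩ := by
        simp only [ofBij, dif_neg h]
      rw [e1]
      refine ⟨rfl, ?_⟩
      simp only [ofBij, Equiv.apply_symm_apply]
  · obtain ⟨v, k⟩ := z
    have e1 : ofBij G e (Sum.inr ⟨v, k⟩) = Sum.inl ⟨(v, (e v k).1), (e v k).2.1.symm⟩ := rfl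
    rw [e1]
    refine ⟨rfl, ?_⟩
    have h : ¬ G.Adj v (e v k).1 := (e v k).2.2
    simp only [ofBij, dif_neg h]
    simp

theorem ofBij_compat (G : SimpleGraph (Fin n)) (e : ∀ v, Fin (n - 1 - d v) ≃ NonNbr G v) :
    Compat G (ofBij G e) := by
  intro u v h
  by_cases hG : G.Adj u v
  · simp [ofBij, hG]
  · simp [ofBij, hG]

end Vale.Agent.P308
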