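import Vale.Agent.P335.GraphConnect

/-!
# Hinge flips between neighbouring degree vectors
-/

namespace Vale.Agent.P308

open Finset Vale.Agent.P335

variable {n : ℕ}

open Classical in
/-- the number of `x` that are adjacent to `u`, not adjacent to `w` and different from `w` -/
noncomputable def excess (G : SimpleGraph (Fin n)) (u w : Fin n) : ℕ :=
  (univ.filter (fun x => G.Adj u x ∧ ¬ G.Adj w x ∧ x ≠ w)).card

/-- move one unit of degree from `w` to `u` -/
def shift (d : Fin n → ℕ) (u w : Fin n) : Fin n → ℕ :=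
  fun v => if v = u then d v + 1 else if v = w then d v - 1 else d v

/-- the hinge flip: delete the edge `wx`, insert the edge `ux` -/
def hinge (G : SimpleGraph (Fin n)) (w u x : Fin n) : SimpleGraph (Fin n) where
  Adj a b := a ≠ b ∧ ((G.Adj a b ∧ ¬ (a = w ∧ b = x) ∧ ¬ (a = x ∧ b = w)) ∨
    (a = u ∧ b = x) ∨ (a = x ∧ b = u))
  symm := ⟨by
    rintro a b ⟨hab, h⟩
    refine ⟨hab.symm, ?_⟩
    rcases h with ⟨h1, h2, h3⟩ | h | h
    · exact Or.inl ⟨h1.symm, fun h => h3 ⟨h.2, h.1⟩, fun h => h2 ⟨h.2, h.1⟩⟩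
    · exact Or.inr (Or.inr ⟨h.2, h.1⟩)
    · exact Or.inr (Or.inl ⟨h.2, h.1⟩)⟩
  loopless := ⟨fun a h => h.1 rfl⟩

theorem hinge_adj (G : SimpleGraph (Fin n)) (w u x a b : Fin n) :
    (hinge G w u x).Adj a b ↔ a ≠ b ∧ ((G.Adj a b ∧ ¬ (a = w ∧ b = x) ∧ ¬ (a = x ∧ b = w)) ∨
      (a = u ∧ b = x) ∨ (a = x ∧ b = u)) := Iff.rfl

theorem hinge_hinge {G : SimpleGraph (Fin n)} {w u x : Fin n} (h1 : G.Adj w x)
    (h2 : ¬ G.Adj u x) : hinge (hinge G w u x) u w x = G := by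
  ext a b
  rw [hinge_adj, hinge_adj]
  constructor
  · rintro ⟨hab, ⟨⟨-, h⟩, h3, h4⟩ | ⟨rfl, rfl⟩ | ⟨rfl, rfl⟩⟩
    · rcases h with ⟨h, -, -⟩ | h | h
      · exact h
      · exact (h3 h).elim
      · exact (h4 h).elim
    · exact h1
    · exact h1.symm
  · intro h
    refine ⟨h.ne, ?_⟩
    by_cases c1 : a = w ∧ b = x
    · exact Or.inr (Or.inl c1)
    by_cases c2 : a = x ∧ b = w
    · exact Or.inr (Or.inr c2)
    refine Or.inl ⟨⟨h.ne, Or.inl ⟨h, c1, c2⟩⟩, ?_, ?_⟩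
    · rintro ⟨rfl, rfl⟩
      exact h2 h
    · rintro ⟨rfl, rfl⟩
      exact h2 h.symm

theorem hinge_adj_new {G : SimpleGraph (Fin n)} {w u x : Fin n} (hux : u ≠ x) :
    (hinge G w u x).Adj u x := ⟨hux, Or.inr (Or.inl ⟨rfl, rfl⟩)⟩

theorem hinge_adj_old {G : SimpleGraph (Fin n)} {w u x : Fin n} (huw : u ≠ w) (hwx : w ≠ x) :
    ¬ (hinge G w u x).Adj w x := by
  rintro ⟨-, ⟨-, h, -⟩ | ⟨h, -⟩ | ⟨h, -⟩⟩
  · exact h ⟨rfl, rfl⟩
  · exact huw h.symm
  · exact hwx h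

theorem hinge_pointwise {G : SimpleGraph (Fin n)} {w u x : Fin n} (h1 : G.Adj w x)
    (h2 : ¬ G.Adj u x) (hux : u ≠ x) (huw : u ≠ w) (v y : Fin n) :
    adjN (hinge G w u x) v y + (if v = w ∧ y = x then 1 else 0) + (if v = x ∧ y = w then 1 else 0)
      = adjN G v y + (if v = u ∧ y = x then 1 else 0) + (if v = x ∧ y = u then 1 else 0) := by
  have hwx : w ≠ x := h1.ne
  by_cases c1 : v = w ∧ y = x
  · obtain ⟨rfl, rfl⟩ := c1
    rw [gc_adjN_pos h1, gc_adjN_neg (hinge_adj_old huw hwx)]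
    simp [hwx, huw.symm]
  by_cases c2 : v = x ∧ y = w
  · obtain ⟨rfl, rfl⟩ := c2
    rw [gc_adjN_pos h1.symm, gc_adjN_neg (fun h => hinge_adj_old huw hwx h.symm)]
    simp [hwx, hwx.symm, huw.symm, hux.symm]
  by_cases c3 : v = u ∧ y = x
  · obtain ⟨rfl, rfl⟩ := c3
    rw [gc_adjN_neg h2, gc_adjN_pos (hinge_adj_new hux)]
    simp [huw, hux]
  by_cases c4 : v = x ∧ y = u
  · obtain ⟨rfl, rfl⟩ := c4
    rw [gc_adjN_neg (fun h => h2 h.symm), gc_adjN_pos (hinge_adj_new hux).symm]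
    simp [huw, hux, hux.symm, hwx.symm]
  rw [if_neg c1, if_neg c2, if_neg c3, if_neg c4]
  congr 2
  apply gc_adjN_congr
  rw [hinge_adj]
  constructor
  · rintro ⟨-, ⟨h, -, -⟩ | h | h⟩
    · exact h
    · exact (c3 h).elim
    · exact (c4 h).elim
  · intro h
    exact ⟨h.ne, Or.inl ⟨h, c1, c2⟩⟩

theorem sum_ite_and (v a b : Fin n) :
    ∑ y, (if v = a ∧ y = b then 1 else 0 : ℕ) = if v = a then 1 else 0 := by
  by_cases h : v = a
  · simp [h]
  · simp [h]

open Classical in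
theorem hinge_degree {d : Fin n → ℕ} (G : Omega d) {w u x : Fin n} (h1 : G.1.Adj w x)
    (h2 : ¬ G.1.Adj u x) (hux : u ≠ x) (huw : u ≠ w) :
    ∀ v, (hinge G.1 w u x).degree v = shift d u w v := by
  intro v
  have hs := Finset.sum_congr rfl (fun y (_ : y ∈ (univ : Finset (Fin n))) =>
    hinge_pointwise h1 h2 hux huw v y)
  simp only [Finset.sum_add_distrib, sum_ite_and] at hs
  rw [← split_degree, ← split_degree, G.2 v] at hs
  unfold shift
  by_cases c1 : v = u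
  · subst c1
    simp only [huw, if_false, if_true] at hs ⊢
    omega
  · by_cases c2 : v = w
    · subst c2
      simp only [c1, if_false, if_true] at hs ⊢
      omega
    · simp only [c1, c2, if_false] at hs ⊢
      omega

theorem shift_shift {d : Fin n → ℕ} {u w : Fin n} (huw : u ≠ w) (hw : 1 ≤ d w) :
    shift (shift d u w) w u = d := by
  funext v
  unfold shift
  by_cases c1 : v = u
  · subst c1
    simp [huw]
  · by_cases c2 : v = w
    · subst c2
      simp [c1]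
      omega
    · simp [c1, c2]

end Vale.Agent.P308
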