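import Vale.Agent.P308.Hinge

/-!
# Double counting along hinge flips
-/

namespace Vale.Agent.P308

open Finset Vale.Agent.P335

variable {n : ℕ}

theorem excess_le (G : SimpleGraph (Fin n)) (u w : Fin n) : excess G u w ≤ n := by
  classical
  unfold excess
  calc _ ≤ (univ : Finset (Fin n)).card := Finset.card_filter_le _ _
    _ = n := by simp

theorem excess_pos {G : SimpleGraph (Fin n)} {u w x : Fin n} (h1 : G.Adj u x) (h2 : ¬ G.Adj w x)
    (h3 : x ≠ w) : 1 ≤ excess G u w := by
  classical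
  unfold excess
  exact Finset.card_pos.2 ⟨x, Finset.mem_filter.2 ⟨mem_univ _, h1, h2, h3⟩⟩

open Classical in
/-- the pairs (graph, pivot) at which a hinge flip from `w` to `u` is possible -/
noncomputable def flips (d : Fin n → ℕ) (w u : Fin n) : Finset (Omega d × Fin n) :=
  univ.filter (fun p => p.1.1.Adj w p.2 ∧ ¬ p.1.1.Adj u p.2 ∧ p.2 ≠ u)

theorem card_flips (d : Fin n → ℕ) (w u : Fin n) :
    (flips d w u).card = ∑ G : Omega d, excess G.1 w u := by
  classical
  unfold flips excess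
  rw [Finset.card_filter, Fintype.sum_prod_type]
  apply Finset.sum_congr rfl
  intro G _
  rw [Finset.card_filter]

theorem card_flips_shift {d : Fin n → ℕ} {u w : Fin n} (huw : u ≠ w) (hw : 1 ≤ d w) :
    (flips d w u).card = (flips (shift d u w) u w).card := by
  classical
  have hm : ∀ (e : Fin n → ℕ) (a b : Fin n) (p : Omega e × Fin n), p ∈ flips e a b ↔
      (p.1.1.Adj a p.2 ∧ ¬ p.1.1.Adj b p.2 ∧ p.2 ≠ b) := by
    intro e a b p
    unfold flips
    simp
  refine Finset.card_bij'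
    (fun p hp => (⟨hinge p.1.1 w u p.2, hinge_degree p.1 ((hm _ _ _ p).1 hp).1
      ((hm _ _ _ p).1 hp).2.1 ((hm _ _ _ p).1 hp).2.2.symm huw⟩, p.2))
    (fun p hp => (⟨hinge p.1.1 u w p.2, by
      have := hinge_degree p.1 ((hm _ _ _ p).1 hp).1
        ((hm _ _ _ p).1 hp).2.1 ((hm _ _ _ p).1 hp).2.2.symm huw.symm
      rwa [shift_shift huw hw] at this⟩, p.2)) ?_ ?_ ?_ ?_
  · intro p hp
    obtain ⟨h1, h2, h3⟩ := (hm _ _ _ p).1 hp
    exact (hm _ _ _ _).2 ⟨hinge_adj_new h3.symm, hinge_adj_old huw h1.ne, h1.ne'⟩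
  · intro p hp
    obtain ⟨h1, h2, h3⟩ := (hm _ _ _ p).1 hp
    exact (hm _ _ _ _).2 ⟨hinge_adj_new h3.symm, hinge_adj_old huw.symm h1.ne, h1.ne'⟩
  · intro p hp
    obtain ⟨h1, h2, h3⟩ := (hm _ _ _ p).1 hp
    exact Prod.ext (Subtype.ext (hinge_hinge h1 h2)) rfl
  · intro p hp
    obtain ⟨h1, h2, h3⟩ := (hm _ _ _ p).1 hp
    exact Prod.ext (Subtype.ext (hinge_hinge h1 h2)) rfl

/-- the double counting identity along hinge flips -/
theorem sum_excess_shift {d : Fin n → ℕ} {u w : Fin n} (huw : u ≠ w) (hw : 1 ≤ d w) :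
    ∑ G : Omega d, excess G.1 w u = ∑ G : Omega (shift d u w), excess G.1 u w := by
  rw [← card_flips, ← card_flips, card_flips_shift huw hw]

open Classical in
theorem excess_pointwise (G : SimpleGraph (Fin n)) {u w : Fin n} (huw : u ≠ w) (x : Fin n) :
    (if G.Adj u x ∧ ¬ G.Adj w x ∧ x ≠ w then 1 else 0) + adjN G w x +
        (if x = w then adjN G u w else 0)
      = (if G.Adj w x ∧ ¬ G.Adj u x ∧ x ≠ u then 1 else 0) + adjN G u x +
        (if x = u then adjN G u w else 0) := by
  by_cases c1 : x = w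
  · subst c1
    simp [gc_adjN_self, huw.symm]
  by_cases c2 : x = u
  · subst c2
    simp [gc_adjN_self, huw, split_adjN_comm G w x]
  by_cases hA : G.Adj u x <;> by_cases hB : G.Adj w x <;>
    simp [adjN, hA, hB, c1, c2]

theorem excess_balance {d : Fin n → ℕ} (G : Omega d) {u w : Fin n} (huw : u ≠ w) :
    excess G.1 u w + d w = excess G.1 w u + d u := by
  classical
  have hs := Finset.sum_congr rfl (fun x (_ : x ∈ (univ : Finset (Fin n))) =>
    excess_pointwise G.1 huw x)
  simp only [Finset.sum_add_distrib, Finset.sum_ite_eq', mem_univ, if_true] at hs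
  rw [← split_degree, ← split_degree, G.2, G.2, ← Finset.card_filter, ← Finset.card_filter] at hs
  unfold excess
  omega

end Vale.Agent.P308
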