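import Mathlib

/-!
# Perfect matchings as edge sets, and their description by fixed-point-free involutions
-/

namespace Vale.Agent.P308

open Finset

variable {V : Type*}

/-- `M` is a perfect matching of `T`: a set of edges of `T` such that every vertex lies in exactly
one edge of `M`. -/
def IsPerfMatching (T : SimpleGraph V) (M : Finset (Sym2 V)) : Prop :=
  (∀ e ∈ M, e ∈ T.edgeSet) ∧ ∀ v : V, ∃! e, e ∈ M ∧ v ∈ e

/-- the set of all perfect matchings of `T` -/
def PM (T : SimpleGraph V) : Type _ := {M : Finset (Sym2 V) // IsPerfMatching T M}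

noncomputable instance [Fintype V] (T : SimpleGraph V) : Fintype (PM T) := by
  classical
  unfold PM
  infer_instance

noncomputable instance (T : SimpleGraph V) : DecidableEq (PM T) := Classical.decEq _

/-- `m` sends every vertex to a neighbour and is an involution -/
def IsInvol (T : SimpleGraph V) (m : V → V) : Prop := ∀ v, T.Adj v (m v) ∧ m (m v) = v

/-- the partner of `v` in the perfect matching `M` -/
noncomputable def mate {T : SimpleGraph V} {M : Finset (Sym2 V)} (h : IsPerfMatching T M)
    (v : V) : V :=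
  Sym2.Mem.other (h.2 v).choose_spec.1.2

theorem mate_mem {T : SimpleGraph V} {M : Finset (Sym2 V)} (h : IsPerfMatching T M) (v : V) :
    s(v, mate h v) ∈ M := by
  unfold mate
  rw [Sym2.other_spec]
  exact (h.2 v).choose_spec.1.1

theorem eq_of_mem {T : SimpleGraph V} {M : Finset (Sym2 V)} (h : IsPerfMatching T M) (v : V)
    {e e' : Sym2 V} (he : e ∈ M) (hv : v ∈ e) (he' : e' ∈ M) (hv' : v ∈ e') : e = e' :=
  (h.2 v).unique ⟨he, hv⟩ ⟨he', hv'⟩

theorem eq_mate {T : SimpleGraph V} {M : Finset (Sym2 V)} (h : IsPerfMatching T M) {v w : V}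
    (hvw : s(v, w) ∈ M) : mate h v = w := by
  have := eq_of_mem h v (mate_mem h v) (Sym2.mem_mk_left _ _) hvw (Sym2.mem_mk_left _ _)
  exact Sym2.congr_right.1 this

theorem mem_iff_mate {T : SimpleGraph V} {M : Finset (Sym2 V)} (h : IsPerfMatching T M) {v w : V} :
    s(v, w) ∈ M ↔ mate h v = w :=
  ⟨eq_mate h, fun e => e ▸ mate_mem h v⟩

theorem mate_isInvol {T : SimpleGraph V} {M : Finset (Sym2 V)} (h : IsPerfMatching T M) :
    IsInvol T (mate h) := by
  intro v
  refine ⟨?_, ?_⟩
  · have := h.1 _ (mate_mem h v)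
    simpa using this
  · apply eq_mate h
    rw [Sym2.eq_swap]
    exact mate_mem h v

theorem isPerfMatching_of_invol [Fintype V] [DecidableEq V] {T : SimpleGraph V} {m : V → V}
    (hm : IsInvol T m) : IsPerfMatching T (univ.image (fun v => s(v, m v))) := by
  refine ⟨?_, ?_⟩
  · intro e he
    obtain ⟨v, -, rfl⟩ := Finset.mem_image.1 he
    simpa using (hm v).1
  · intro v
    refine ⟨s(v, m v), ⟨Finset.mem_image.2 ⟨v, mem_univ _, rfl⟩, Sym2.mem_mk_left _ _⟩, ?_⟩
    rintro e ⟨he, hv⟩
    obtain ⟨w, -, rfl⟩ := Finset.mem_image.1 he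
    rcases Sym2.mem_iff.1 hv with rfl | rfl
    · rfl
    · rw [(hm w).2, Sym2.eq_swap]

/-- perfect matchings correspond to involutions along edges -/
noncomputable def pmEquiv [Fintype V] [DecidableEq V] (T : SimpleGraph V) :
    PM T ≃ {m : V → V // IsInvol T m} where
  toFun M := ⟨mate M.2, mate_isInvol M.2⟩
  invFun m := ⟨univ.image (fun v => s(v, m.1 v)), isPerfMatching_of_invol m.2⟩
  left_inv := by
    intro M
    apply Subtype.ext
    ext e
    constructor
    · intro he
      obtain ⟨v, -, rfl⟩ := Finset.mem_image.1 he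
      exact mate_mem M.2 v
    · intro he
      induction e using Sym2.ind with
      | _ a b =>
        refine Finset.mem_image.2 ⟨a, mem_univ _, ?_⟩
        show s(a, mate M.2 a) = s(a, b)
        rw [eq_mate M.2 he]
  right_inv := by
    intro m
    apply Subtype.ext
    funext v
    exact eq_mate (isPerfMatching_of_invol m.2) (Finset.mem_image.2 ⟨v, mem_univ _, rfl⟩)

end Vale.Agent.P308
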