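import Vale.Agent.P308.Count
import Vale.Agent.P335.GFinal

/-!
# The two-stage sampler for the perfect matchings of the gadget graph
-/

namespace Vale.Agent.P308

open Finset Vale.Agent.P335

variable {n : ℕ} {d : Fin n → ℕ}

/-- output law of the two-stage sampler: run the switch chain for `t` steps from `G0`, then output
a uniformly random perfect matching of the gadget graph among those that project to the current
graph -/
noncomputable def samplerLaw (d : Fin n → ℕ) (t : ℕ) (G0 : Omega d) (M : PM (gadget d)) : ℝ :=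
  ∑ G : Omega d, (switchChain d ^ t) G0 G *
    (if M ∈ fibre d G.1 then 1 / ((fibre d G.1).card : ℝ) else 0)

/-- total variation distance between the output law and the uniform law on the perfect matchings
of the gadget graph -/
noncomputable def tvPM (d : Fin n → ℕ) (t : ℕ) (G0 : Omega d) : ℝ :=
  (1 / 2) * ∑ M : PM (gadget d), |samplerLaw d t G0 M - 1 / (Fintype.card (PM (gadget d)) : ℝ)|

theorem mem_fibre_iff (hd : ∀ v, d v ≤ n - 1) (M : PM (gadget d)) (G : Omega d) :
    M ∈ fibre d G.1 ↔ proj hd M = G := by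
  classical
  unfold fibre
  rw [Finset.mem_filter]
  constructor
  · rintro ⟨-, h⟩
    exact Subtype.ext h
  · intro h
    exact ⟨mem_univ _, congrArg Subtype.val h⟩

theorem fibre_eq_filter (hd : ∀ v, d v ≤ n - 1) (G : Omega d) :
    univ.filter (fun M => proj hd M = G) = fibre d G.1 := by
  ext M
  rw [mem_fibre_iff hd, Finset.mem_filter]
  simp

theorem samplerLaw_eq (hd : ∀ v, d v ≤ n - 1) (t : ℕ) (G0 : Omega d) (M : PM (gadget d)) :
    samplerLaw d t G0 M =
      (switchChain d ^ t) G0 (proj hd M) / ((∏ v, (n - 1 - d v).factorial : ℕ) : ℝ) := by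
  unfold samplerLaw
  rw [Finset.sum_eq_single (proj hd M)]
  · rw [if_pos ((mem_fibre_iff hd M _).2 rfl), card_fibre]
    ring
  · intro G _ hG
    rw [if_neg (fun h => hG ((mem_fibre_iff hd M G).1 h).symm), mul_zero]
  · intro h
    exact (h (mem_univ _)).elim

theorem card_PM (hd : ∀ v, d v ≤ n - 1) :
    Fintype.card (PM (gadget d)) = Fintype.card (Omega d) * ∏ v, (n - 1 - d v).factorial := by
  classical
  have h := Finset.card_eq_sum_card_fiberwise (s := (univ : Finset (PM (gadget d))))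
    (t := (univ : Finset (Omega d))) (f := proj hd) (fun x _ => mem_univ _)
  rw [Finset.card_univ] at h
  rw [h]
  have : ∀ G ∈ (univ : Finset (Omega d)),
      (univ.filter (fun M => proj hd M = G)).card = ∏ v, (n - 1 - d v).factorial := by
    intro G _
    rw [← card_fibre G, ← fibre_eq_filter hd G]
  rw [Finset.sum_congr rfl this, Finset.sum_const, Finset.card_univ, smul_eq_mul]

theorem tvPM_eq (hd : ∀ v, d v ≤ n - 1) (t : ℕ) (G0 : Omega d) :
    tvPM d t G0 = tvDist d t G0 := by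
  classical
  unfold tvPM tvDist
  congr 1
  set F : ℝ := ((∏ v, (n - 1 - d v).factorial : ℕ) : ℝ) with hF
  have hFpos : 0 < F := by
    rw [hF]
    exact_mod_cast Finset.prod_pos (fun v _ => Nat.factorial_pos _)
  have hcard : (Fintype.card (PM (gadget d)) : ℝ) = (Fintype.card (Omega d) : ℝ) * F := by
    rw [card_PM hd, hF]
    push_cast
    rfl
  have h1 : ∀ M : PM (gadget d),
      |samplerLaw d t G0 M - 1 / (Fintype.card (PM (gadget d)) : ℝ)| =
        (fun G : Omega d => |(switchChain d ^ t) G0 G - 1 / (Fintype.card (Omega d) : ℝ)| / F)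
          (proj hd M) := by
    intro M
    rw [samplerLaw_eq hd, hcard]
    show _ = |(switchChain d ^ t) G0 (proj hd M) - 1 / (Fintype.card (Omega d) : ℝ)| / F
    rw [← abs_of_pos hFpos, ← abs_div, abs_of_pos hFpos]
    congr 1
    rw [sub_div, div_div]
  rw [Finset.sum_congr rfl (fun M _ => h1 M)]
  rw [← Finset.sum_fiberwise (univ : Finset (PM (gadget d))) (proj hd)]
  apply Finset.sum_congr rfl
  intro G _
  have h2 : ∀ M ∈ univ.filter (fun M => proj hd M = G),
      (fun G : Omega d => |(switchChain d ^ t) G0 G - 1 / (Fintype.card (Omega d) : ℝ)| / F)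
          (proj hd M) = |(switchChain d ^ t) G0 G - 1 / (Fintype.card (Omega d) : ℝ)| / F := by
    intro M hM
    rw [(Finset.mem_filter.1 hM).2]
  rw [Finset.sum_congr rfl h2, Finset.sum_const, fibre_eq_filter hd, card_fibre, nsmul_eq_mul,
    ← hF]
  field_simp

/-- geometric convergence of the switch chain: precision `2^-(k+1)` after
`2 n^4 (n^2 + 2 k)` steps -/
theorem tvDist_le_pow (hn : 4 ≤ n) (d : Fin n → ℕ) (G0 : Omega d) (k t : ℕ)
    (ht : 2 * n ^ 4 * (n ^ 2 + 2 * k) ≤ t) : tvDist d t G0 ≤ 1 / 2 ^ (k + 1) := by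
  have : Nonempty (Omega d) := ⟨G0⟩
  set E : ℝ := (Fintype.card (Fin 4 ↪ Fin n) : ℝ) with hE
  have hE1 : (1 : ℝ) ≤ E := by
    rw [hE]
    exact_mod_cast chain_card_emb_pos hn
  have hE4 : E ≤ (n : ℝ) ^ 4 := by
    rw [hE]
    exact_mod_cast asm_card_emb_le n
  have hγ1 : 1 / (2 * E) ≤ 1 := by
    rw [div_le_one (by positivity)]
    linarith
  have hγ0 : 0 < 1 / (2 * E) := by positivity
  have h := l1_sq_le (asm_lazySymm hn d) hγ1 (asm_poincare hn d (g_graph_poincare d) G0) t G0
  set S : ℝ := ∑ y, |(switchChain d ^ t) G0 y - 1 / (Fintype.card (Omega d) : ℝ)| with hS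
  have hS0 : 0 ≤ S := Finset.sum_nonneg fun y _ => abs_nonneg _
  have hN : (Fintype.card (Omega d) : ℝ) ≤ 2 ^ (n ^ 2) := by exact_mod_cast card_Omega_le d
  have ht' : (2 * (n : ℝ) ^ 4 * ((n : ℝ) ^ 2 + 2 * k)) ≤ t := by exact_mod_cast ht
  have hm0 : (0 : ℝ) ≤ (n : ℝ) ^ 2 + 2 * k := by positivity
  have hγt : ((n ^ 2 + 2 * k : ℕ) : ℝ) ≤ 1 / (2 * E) * t := by
    push_cast
    rw [div_mul_eq_mul_div, le_div_iff₀ (by positivity)]
    nlinarith [mul_le_mul_of_nonneg_right hE4 hm0]
  have h1 : (1 - 1 / (2 * E)) ^ t ≤ Real.exp (-(1 / (2 * E) * t)) := by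
    have h2 : 1 - 1 / (2 * E) ≤ Real.exp (-(1 / (2 * E))) := by
      have := Real.add_one_le_exp (-(1 / (2 * E)))
      linarith
    calc (1 - 1 / (2 * E)) ^ t ≤ (Real.exp (-(1 / (2 * E)))) ^ t :=
          pow_le_pow_left₀ (by linarith) h2 t
      _ = Real.exp (-(1 / (2 * E) * t)) := by
          rw [← Real.exp_nat_mul]
          congr 1
          ring
  have h3 : Real.exp (-(1 / (2 * E) * t)) ≤ Real.exp (-((n ^ 2 + 2 * k : ℕ) : ℝ)) :=
    Real.exp_le_exp.mpr (by linarith)
  have h4 : Real.exp (-((n ^ 2 + 2 * k : ℕ) : ℝ)) ≤ 1 / 2 ^ (n ^ 2 + 2 * k) := by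
    rw [Real.exp_neg, ← Real.exp_one_pow, ← one_div]
    apply one_div_le_one_div_of_le (by positivity)
    apply pow_le_pow_left₀ (by norm_num)
    have := Real.add_one_le_exp 1
    linarith
  have h5 : S ^ 2 ≤ (1 / 2 ^ k) ^ 2 := by
    calc S ^ 2 ≤ (Fintype.card (Omega d) : ℝ) * (1 - 1 / (2 * E)) ^ t := h
      _ ≤ 2 ^ (n ^ 2) * (1 / 2 ^ (n ^ 2 + 2 * k)) :=
          mul_le_mul hN (h1.trans (h3.trans h4)) (pow_nonneg (by linarith) t) (by positivity)
      _ = (1 / 2 ^ k) ^ 2 := by
          rw [pow_add, pow_mul', div_pow, one_pow]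
          field_simp
  have h6 : S ≤ 1 / 2 ^ k := (pow_le_pow_iff_left₀ hS0 (by positivity) (by norm_num)).1 h5
  unfold tvDist
  rw [← hS, pow_succ]
  calc 1 / 2 * S ≤ 1 / 2 * (1 / 2 ^ k) := by linarith
    _ = 1 / (2 ^ k * 2) := by
        field_simp

end Vale.Agent.P308
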