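import Vale.Agent.P308.Telescope
import Vale.Agent.P308.Sampler

/-!
# The number of realizations as a product of ratios of means
-/

namespace Vale.Agent.P308

open Finset Vale.Agent.P335

variable {n : ℕ}

/-- the mean of `excess G u w` for `G` uniform in `Omega d` -/
noncomputable def meanExcess (d : Fin n → ℕ) (u w : Fin n) : ℝ :=
  (∑ G : Omega d, (excess G.1 u w : ℝ)) / (Fintype.card (Omega d) : ℝ)

theorem meanExcess_le (d : Fin n → ℕ) (u w : Fin n) (h : Nonempty (Omega d)) :
    meanExcess d u w ≤ n := by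
  have hc : (0 : ℝ) < (Fintype.card (Omega d) : ℝ) := by exact_mod_cast Fintype.card_pos
  unfold meanExcess
  rw [div_le_iff₀ hc]
  calc ∑ G : Omega d, (excess G.1 u w : ℝ) ≤ ∑ _G : Omega d, (n : ℝ) :=
        Finset.sum_le_sum (fun G _ => by exact_mod_cast excess_le G.1 u w)
    _ = n * (Fintype.card (Omega d) : ℝ) := by simp; ring

theorem Step.mean_lower {d d' : Fin n → ℕ} {u w : Fin n} (h : Step d d' u w) :
    1 / (n : ℝ) ^ 2 ≤ meanExcess d w u := by
  obtain ⟨-, -, h1, -, -, hc, -⟩ := h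
  have hc0 : (0 : ℝ) < (Fintype.card (Omega d) : ℝ) := by exact_mod_cast Fintype.card_pos
  have hc' : (Fintype.card (Omega d) : ℝ) ≤ (n : ℝ) ^ 2 * ∑ G : Omega d, (excess G.1 w u : ℝ) := by
    exact_mod_cast hc
  have hn : (0 : ℝ) < (n : ℝ) ^ 2 := by
    rcases Nat.eq_zero_or_pos n with h0 | h0
    · subst h0
      simp at hc'
    · positivity
  unfold meanExcess
  rw [div_le_div_iff₀ hn hc0]
  linarith

theorem Step.mean_two {d d' : Fin n → ℕ} {u w : Fin n} (h : Step d d' u w) :
    2 ≤ meanExcess d' u w := by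
  obtain ⟨-, -, -, h1, -, -, h2⟩ := h
  have hc0 : (0 : ℝ) < (Fintype.card (Omega d') : ℝ) := by exact_mod_cast Fintype.card_pos
  unfold meanExcess
  rw [le_div_iff₀ hc0]
  calc 2 * (Fintype.card (Omega d') : ℝ) = ∑ _G : Omega d', (2 : ℝ) := by simp; ring
    _ ≤ _ := Finset.sum_le_sum (fun G _ => by exact_mod_cast h2 G)

theorem Step.card_eq {d d' : Fin n → ℕ} {u w : Fin n} (h : Step d d' u w) :
    (Fintype.card (Omega d) : ℝ) =
      (Fintype.card (Omega d') : ℝ) * (meanExcess d' u w / meanExcess d w u) := by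
  have hl := h.mean_lower
  have h2 := h.mean_two
  obtain ⟨-, -, h1, h1', hid, hc, -⟩ := h
  have hc0 : (0 : ℝ) < (Fintype.card (Omega d) : ℝ) := by exact_mod_cast Fintype.card_pos
  have hc0' : (0 : ℝ) < (Fintype.card (Omega d') : ℝ) := by exact_mod_cast Fintype.card_pos
  have hid' : ∑ G : Omega d, (excess G.1 w u : ℝ) = ∑ G : Omega d', (excess G.1 u w : ℝ) := by
    exact_mod_cast hid
  unfold meanExcess at *
  rw [hid'] at *
  set S : ℝ := ∑ G : Omega d', (excess G.1 u w : ℝ) with hS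
  have hSpos : 0 < S := by
    have : 0 < S / (Fintype.card (Omega d') : ℝ) := by linarith
    by_contra hneg
    have : S / (Fintype.card (Omega d') : ℝ) ≤ 0 :=
      div_nonpos_of_nonpos_of_nonneg (not_lt.1 hneg) hc0'.le
    linarith
  field_simp

theorem step_facts (e : Fin n → ℕ) (u w : Fin n) (huw : u ≠ w) (hw : 1 ≤ e w) (hle : e w ≤ e u) :
    (∑ G : Omega e, excess G.1 w u = ∑ G : Omega (shift e u w), excess G.1 u w) ∧
      (∀ G : Omega (shift e u w), 2 ≤ excess G.1 u w) ∧ pot e + 2 ≤ pot (shift e u w) := by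
  refine ⟨sum_excess_shift huw hw, ?_, ?_⟩
  · intro G'
    have hb := excess_balance G' huw
    have e1 : shift e u w u = e u + 1 := by simp [shift]
    have e2 : shift e u w w = e w - 1 := by simp [shift, huw.symm]
    rw [e1, e2] at hb
    omega
  · have := pot_shift huw hw
    omega

theorem good_pair (e : Fin n → ℕ) (h : 1 < Fintype.card (Omega e)) :
    ∃ u w, u ≠ w ∧ 1 ≤ e w ∧ e w ≤ e u ∧ 1 / (n : ℝ) ^ 2 ≤ meanExcess e w u := by
  have hpos : 0 < Fintype.card (Omega e) := by omega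
  obtain ⟨G0⟩ := Fintype.card_pos_iff.1 hpos
  obtain ⟨G1, hne⟩ := Fintype.exists_ne_of_one_lt_card h G0
  obtain ⟨u, w, huw, hle, hc⟩ := exists_good_pair G0 G1 hne
  have hpos : 0 < ∑ G : Omega e, excess G.1 w u := by
    by_contra h
    have : ∑ G : Omega e, excess G.1 w u = 0 := by omega
    rw [this] at hc
    omega
  obtain ⟨G, -, hG⟩ := Finset.exists_ne_zero_of_sum_ne_zero hpos.ne'
  have hw : 1 ≤ e w := by
    have := excess_le_deg G w u
    omega
  refine ⟨u, w, huw, hw, hle, ?_⟩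
  have hc0 : (0 : ℝ) < (Fintype.card (Omega e) : ℝ) := by
    exact_mod_cast (by omega : 0 < Fintype.card (Omega e))
  have hc' : (Fintype.card (Omega e) : ℝ) ≤ (n : ℝ) ^ 2 * ∑ G : Omega e, (excess G.1 w u : ℝ) := by
    exact_mod_cast hc
  have hn : (0 : ℝ) < (n : ℝ) ^ 2 := by
    have : 0 < n := u.pos
    positivity
  unfold meanExcess
  rw [div_le_div_iff₀ hn hc0]
  linarith

theorem card_eq_prod (D : ℕ → Fin n → ℕ) (U W : ℕ → Fin n) :
    ∀ L : ℕ, (∀ i < L, Step (D i) (D (i + 1)) (U i) (W i)) →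
      (Fintype.card (Omega (D 0)) : ℝ) = (Fintype.card (Omega (D L)) : ℝ) *
        ∏ i ∈ range L, (meanExcess (D (i + 1)) (U i) (W i) / meanExcess (D i) (W i) (U i)) := by
  intro L
  induction L with
  | zero => intro _; simp
  | succ L ih =>
    intro h
    rw [ih (fun i hi => h i (by omega)), Finset.prod_range_succ, (h L (by omega)).card_eq]
    ring

theorem expect_approx (hn : 4 ≤ n) (d : Fin n → ℕ) (G0 : Omega d) (u w : Fin n) (k t : ℕ)
    (ht : 2 * n ^ 4 * (n ^ 2 + 2 * k) ≤ t) :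
    |∑ G : Omega d, (switchChain d ^ t) G0 G * (excess G.1 u w : ℝ) - meanExcess d u w|
      ≤ n / 2 ^ k := by
  have h1 := tvDist_le_pow hn d G0 k t ht
  unfold tvDist at h1
  set N : ℝ := (Fintype.card (Omega d) : ℝ) with hN
  have e1 : ∑ G : Omega d, (switchChain d ^ t) G0 G * (excess G.1 u w : ℝ) - meanExcess d u w =
      ∑ G : Omega d, ((switchChain d ^ t) G0 G - 1 / N) * (excess G.1 u w : ℝ) := by
    unfold meanExcess
    rw [Finset.sum_div, ← Finset.sum_sub_distrib]
    apply Finset.sum_congr rfl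
    intro G _
    ring
  rw [e1]
  calc |∑ G : Omega d, ((switchChain d ^ t) G0 G - 1 / N) * (excess G.1 u w : ℝ)|
      ≤ ∑ G : Omega d, |((switchChain d ^ t) G0 G - 1 / N) * (excess G.1 u w : ℝ)| :=
        Finset.abs_sum_le_sum_abs _ _
    _ ≤ ∑ G : Omega d, |(switchChain d ^ t) G0 G - 1 / N| * n := by
        apply Finset.sum_le_sum
        intro G _
        rw [abs_mul]
        apply mul_le_mul_of_nonneg_left _ (abs_nonneg _)
        rw [abs_of_nonneg (Nat.cast_nonneg _)]
        exact_mod_cast excess_le G.1 u w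
    _ = (∑ G : Omega d, |(switchChain d ^ t) G0 G - 1 / N|) * n := by rw [Finset.sum_mul]
    _ ≤ (1 / 2 ^ k) * n := by
        apply mul_le_mul_of_nonneg_right _ (Nat.cast_nonneg _)
        rw [pow_succ] at h1
        have h2 : (1 : ℝ) / (2 ^ k * 2) = (1 / 2) * (1 / 2 ^ k) := by
          field_simp
        rw [h2] at h1
        linarith
    _ = n / 2 ^ k := by ring

end Vale.Agent.P308
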