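import Mathlib

/-!
# Elementary probability on finite types with the uniform law
-/

namespace Vale.Agent.P308

open Finset

/-- expectation of `F` under the uniform law on the finite type `S` -/
noncomputable def ex (S : Type*) [Fintype S] (F : S → ℝ) : ℝ :=
  (∑ x, F x) / (Fintype.card S : ℝ)

open Classical in
/-- indicator of a proposition -/
noncomputable def ind (p : Prop) : ℝ := if p then 1 else 0

theorem ind_pos {p : Prop} (h : p) : ind p = 1 := by
  unfold ind
  rw [if_pos h]

theorem ind_neg {p : Prop} (h : ¬ p) : ind p = 0 := by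
  unfold ind
  rw [if_neg h]

theorem ind_nonneg (p : Prop) : 0 ≤ ind p := by
  by_cases h : p
  · rw [ind_pos h]; norm_num
  · rw [ind_neg h]

theorem ind_le_one (p : Prop) : ind p ≤ 1 := by
  by_cases h : p
  · rw [ind_pos h]
  · rw [ind_neg h]; norm_num

/-- probability of the event `E` under the uniform law on the finite type `S` -/
noncomputable def prob (S : Type*) [Fintype S] (E : S → Prop) : ℝ :=
  ex S (fun x => ind (E x))

section
variable {S S' A B : Type*} [Fintype S] [Fintype S'] [Fintype A] [Fintype B]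

theorem ex_const [Nonempty S] (c : ℝ) : ex S (fun _ => c) = c := by
  have h : (0 : ℝ) < (Fintype.card S : ℝ) := by exact_mod_cast Fintype.card_pos
  unfold ex
  simp

theorem ex_add (F G : S → ℝ) : ex S (fun x => F x + G x) = ex S F + ex S G := by
  unfold ex
  rw [Finset.sum_add_distrib, add_div]

theorem ex_mul_left (c : ℝ) (F : S → ℝ) : ex S (fun x => c * F x) = c * ex S F := by
  unfold ex
  rw [← Finset.mul_sum, mul_div_assoc]

theorem ex_mono {F G : S → ℝ} (h : ∀ x, F x ≤ G x) : ex S F ≤ ex S G := by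
  unfold ex
  exact div_le_div_of_nonneg_right (Finset.sum_le_sum (fun x _ => h x)) (Nat.cast_nonneg _)

theorem ex_nonneg {F : S → ℝ} (h : ∀ x, 0 ≤ F x) : 0 ≤ ex S F := by
  unfold ex
  exact div_nonneg (Finset.sum_nonneg (fun x _ => h x)) (Nat.cast_nonneg _)

theorem ex_congr {F G : S → ℝ} (h : ∀ x, F x = G x) : ex S F = ex S G := by
  have : F = G := funext h
  rw [this]

theorem ex_equiv (e : S ≃ S') (F : S' → ℝ) : ex S (fun x => F (e x)) = ex S' F := by
  unfold ex
  rw [Fintype.card_congr e, e.sum_comp]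

theorem ex_prod (F : A × B → ℝ) : ex (A × B) F = ex A (fun a => ex B (fun b => F (a, b))) := by
  unfold ex
  rw [Fintype.sum_prod_type, Fintype.card_prod, ← Finset.sum_div, div_div]
  push_cast
  rw [mul_comm]

theorem ex_sum {ι : Type*} (I : Finset ι) (F : ι → S → ℝ) :
    ex S (fun x => ∑ i ∈ I, F i x) = ∑ i ∈ I, ex S (F i) := by
  unfold ex
  rw [Finset.sum_comm, Finset.sum_div]

theorem prob_nonneg (E : S → Prop) : 0 ≤ prob S E :=
  ex_nonneg (fun _ => ind_nonneg _)

theorem prob_mono {E E' : S → Prop} (h : ∀ x, E x → E' x) : prob S E ≤ prob S E' := by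
  apply ex_mono
  intro x
  by_cases h1 : E x
  · rw [ind_pos h1, ind_pos (h x h1)]
  · rw [ind_neg h1]
    exact ind_nonneg _

theorem prob_union {ι : Type*} (I : Finset ι) (E : ι → S → Prop) :
    prob S (fun x => ∃ i ∈ I, E i x) ≤ ∑ i ∈ I, prob S (E i) := by
  unfold prob
  rw [← ex_sum]
  apply ex_mono
  intro x
  by_cases h : ∃ i ∈ I, E i x
  · obtain ⟨i, hi, hE⟩ := h
    rw [ind_pos ⟨i, hi, hE⟩]
    calc (1 : ℝ) = ind (E i x) := (ind_pos hE).symm
      _ ≤ _ := Finset.single_le_sum (f := fun i => ind (E i x)) (fun j _ => ind_nonneg _) hi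
  · rw [ind_neg h]
    exact Finset.sum_nonneg (fun j _ => ind_nonneg _)

theorem prob_compl [Nonempty S] (E : S → Prop) : prob S (fun x => ¬ E x) = 1 - prob S E := by
  unfold prob
  have h : ∀ x, ind (¬ E x) = 1 + (-1) * ind (E x) := by
    intro x
    by_cases h : E x
    · rw [ind_pos h, ind_neg (not_not.2 h)]; norm_num
    · rw [ind_neg h, ind_pos h]; norm_num
  rw [ex_congr h, ex_add, ex_const, ex_mul_left]
  ring

theorem markov {F : S → ℝ} (hF : ∀ x, 0 ≤ F x) {a : ℝ} (ha : 0 < a) :
    prob S (fun x => a < F x) ≤ ex S F / a := by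
  unfold prob
  rw [le_div_iff₀ ha, mul_comm, ← ex_mul_left]
  apply ex_mono
  intro x
  by_cases h : a < F x
  · rw [ind_pos h, mul_one]; exact h.le
  · rw [ind_neg h, mul_zero]; exact hF x

theorem prob_equiv (e : S ≃ S') (E : S' → Prop) : prob S (fun x => E (e x)) = prob S' E :=
  ex_equiv e (fun y => ind (E y))

theorem prob_fst [Nonempty B] (E : A → Prop) : prob (A × B) (fun p => E p.1) = prob A E := by
  unfold prob
  rw [ex_prod]
  apply ex_congr
  intro a
  exact ex_const (S := B) (ind (E a))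

/-- a bad event at the first stage, or a bad event later whose conditional probability is small -/
theorem prob_prod_bound (E1 : A → Prop) (E2 : A → B → Prop) {c : ℝ}
    (h : ∀ a, prob B (E2 a) ≤ c) [Nonempty A] :
    prob (A × B) (fun p => E1 p.1 ∨ E2 p.1 p.2) ≤ prob A E1 + c := by
  unfold prob at *
  rw [ex_prod]
  have h1 : ∀ a, ex B (fun b => ind (E1 a ∨ E2 a b)) ≤ ind (E1 a) + c := by
    intro a
    have hc : 0 ≤ c := le_trans (ex_nonneg (fun x => ind_nonneg _)) (h a)
    by_cases h1 : E1 a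
    · have h2 : ex B (fun b => ind (E1 a ∨ E2 a b)) ≤ ex B (fun _ => (1 : ℝ)) :=
        ex_mono (fun b => ind_le_one _)
      have h3 : ex B (fun _ => (1 : ℝ)) ≤ 1 := by
        unfold ex
        simp
        exact div_self_le_one _
      rw [ind_pos h1]
      linarith
    · rw [ind_neg h1, zero_add]
      refine le_trans (le_of_eq (ex_congr (fun b => ?_))) (h a)
      by_cases h2 : E2 a b
      · rw [ind_pos h2, ind_pos (Or.inr h2)]
      · rw [ind_neg h2, ind_neg (fun h3 => h3.elim h1 h2)]
  have h2 : ex A (fun a => ex B (fun b => ind (E1 a ∨ E2 a b))) ≤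
      ex A (fun a => ind (E1 a) + c) := ex_mono h1
  rw [ex_add, ex_const] at h2
  exact h2

theorem prob_coord {ι : Type*} [Fintype ι] [DecidableEq ι] [Nonempty S] (i : ι) (E : S → Prop) :
    prob (ι → S) (fun ω => E (ω i)) = prob S E := by
  rw [← prob_fst (B := {j // j ≠ i} → S) E, ← prob_equiv (Equiv.funSplitAt i S)]
  rfl

theorem ex_pi_succ {s : ℕ} (H : S → (Fin s → S) → ℝ) :
    ex (Fin (s + 1) → S) (fun ω => H (ω 0) (fun i => ω i.succ)) =
      ex S (fun r => ex (Fin s → S) (H r)) := by
  rw [← ex_prod (fun p : S × (Fin s → S) => H p.1 p.2), ← ex_equiv (Fin.consEquiv (fun _ => S)).symm]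
  rfl

theorem prob_pi_succ {s : ℕ} (E : S → (Fin s → S) → Prop) :
    prob (Fin (s + 1) → S) (fun ω => E (ω 0) (fun i => ω i.succ)) =
      prob (S × (Fin s → S)) (fun p => E p.1 p.2) := by
  rw [← prob_equiv (Fin.consEquiv (fun _ => S)).symm]
  rfl

end

end Vale.Agent.P308
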