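import Vale.Agent.P308.Cheb
import Vale.Agent.P308.Means

/-!
# Running the lazy switch chain on explicit random seeds
-/

namespace Vale.Agent.P308

open Finset Vale.Agent.P335

variable {n : ℕ}

/-- the randomness of one step of the lazy switch chain: a fair coin and a uniformly random
injective 4-tuple of vertices -/
abbrev Seed1 (n : ℕ) : Type := Bool × (Fin 4 ↪ Fin n)

/-- one step of the lazy switch chain: stay put if the coin says so, else apply the proposal -/
noncomputable def move (G : SimpleGraph (Fin n)) (σ : Seed1 n) : SimpleGraph (Fin n) :=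
  if σ.1 then G else step G σ.2

/-- `T` steps of the lazy switch chain driven by the seeds `σ` -/
noncomputable def runChain : (T : ℕ) → SimpleGraph (Fin n) → (Fin T → Seed1 n) →
    SimpleGraph (Fin n)
  | 0, G, _ => G
  | T + 1, G, σ => runChain T (move G (σ 0)) (fun i => σ i.succ)

noncomputable def moveO {e : Fin n → ℕ} (G : Omega e) (σ : Seed1 n) : Omega e :=
  if σ.1 then G else stepO G σ.2

theorem moveO_val {e : Fin n → ℕ} (G : Omega e) (σ : Seed1 n) : (moveO G σ).1 = move G.1 σ := by
  unfold moveO move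
  split_ifs <;> rfl

theorem seed_nonempty (hn : 4 ≤ n) : Nonempty (Seed1 n) := by
  have := Fintype.card_pos_iff.1 (chain_card_emb_pos hn)
  exact ⟨(true, this.some)⟩

theorem ex_bool (F : Bool → ℝ) : ex Bool F = (F true + F false) / 2 := by
  unfold ex
  simp

theorem ex_move (hn : 4 ≤ n) {e : Fin n → ℕ} (G : Omega e) (H : Omega e → ℝ) :
    ex (Seed1 n) (fun σ => H (moveO G σ)) = ∑ G', switchChain e G G' * H G' := by
  classical
  have hN : (0 : ℝ) < (Fintype.card (Fin 4 ↪ Fin n) : ℝ) := by exact_mod_cast chain_card_emb_pos hn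
  have := Fintype.card_pos_iff.1 (chain_card_emb_pos hn)
  rw [ex_prod, ex_bool]
  have h1 : ex (Fin 4 ↪ Fin n) (fun b => H (moveO G (true, b))) = H G := by
    have : ∀ b : Fin 4 ↪ Fin n, H (moveO G (true, b)) = H G := fun b => by simp [moveO]
    rw [ex_congr this, ex_const]
  have h2 : ex (Fin 4 ↪ Fin n) (fun b => H (moveO G (false, b))) =
      (∑ t, H (stepO G t)) / (Fintype.card (Fin 4 ↪ Fin n) : ℝ) := by
    have : ∀ b : Fin 4 ↪ Fin n, H (moveO G (false, b)) = H (stepO G b) := fun b => by simp [moveO]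
    rw [ex_congr this]
    rfl
  rw [h1, h2, ← chain_sum_fiber G H]
  unfold switchChain
  simp only [add_mul, Finset.sum_add_distrib]
  have h3 : ∑ x : Omega e, 1 / 2 * (if G = x then (1 : ℝ) else 0) * H x = 1 / 2 * H G := by
    simp
  rw [h3, Finset.sum_div]
  have h4 : ∀ x : Omega e, 1 / 2 * (((univ.filter (fun t : Fin 4 ↪ Fin n => step G.1 t = x.1)).card : ℝ) /
      (Fintype.card (Fin 4 ↪ Fin n) : ℝ)) * H x =
      1 / 2 * (((univ.filter (fun t : Fin 4 ↪ Fin n => step G.1 t = x.1)).card : ℝ) * H x /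
      (Fintype.card (Fin 4 ↪ Fin n) : ℝ)) := by
    intro x
    ring
  rw [Finset.sum_congr rfl (fun x _ => h4 x), ← Finset.mul_sum]
  ring

theorem ex_run (hn : 4 ≤ n) {e : Fin n → ℕ} (H : SimpleGraph (Fin n) → ℝ) :
    ∀ (T : ℕ) (G0 : Omega e), ex (Fin T → Seed1 n) (fun σ => H (runChain T G0.1 σ)) =
      ∑ G, (switchChain e ^ T) G0 G * H G.1 := by
  classical
  have := seed_nonempty hn
  intro T
  induction T with
  | zero =>
    intro G0
    have h1 : ∀ σ : Fin 0 → Seed1 n, H (runChain 0 G0.1 σ) = H G0.1 := fun σ => rfl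
    rw [ex_congr h1, ex_const, pow_zero]
    simp [Matrix.one_apply]
  | succ T ih =>
    intro G0
    have h1 : ∀ σ : Fin (T + 1) → Seed1 n, H (runChain (T + 1) G0.1 σ) =
        (fun (r : Seed1 n) (x : Fin T → Seed1 n) => H (runChain T (moveO G0 r).1 x)) (σ 0)
          (fun i => σ i.succ) := by
      intro σ
      show H (runChain T (move G0.1 (σ 0)) (fun i => σ i.succ)) = _
      rw [← moveO_val]
    rw [ex_congr h1,
      ex_pi_succ (fun (r : Seed1 n) (x : Fin T → Seed1 n) => H (runChain T (moveO G0 r).1 x))]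
    rw [ex_congr (fun r => ih (moveO G0 r)),
      ex_move hn G0 (fun G1 => ∑ G, (switchChain e ^ T) G1 G * H G.1)]
    rw [pow_succ']
    simp only [Matrix.mul_apply, Finset.sum_mul, Finset.mul_sum]
    rw [Finset.sum_comm]
    apply Finset.sum_congr rfl
    intro G _
    apply Finset.sum_congr rfl
    intro G1 _
    ring

open Classical in
/-- a fixed realization of `e`, the start of all runs (the empty graph if there is none) -/
noncomputable def startG (e : Fin n → ℕ) : SimpleGraph (Fin n) :=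
  if h : Nonempty (Omega e) then (Classical.choice h).1 else ⊥

/-- the empirical mean of `excess · u w` over `s` independent runs of `T` steps on `Omega e` -/
noncomputable def est (T s : ℕ) (e : Fin n → ℕ) (u w : Fin n) (ρ : Fin s → Fin T → Seed1 n) : ℝ :=
  (∑ j, (excess (runChain T (startG e) (ρ j)) u w : ℝ)) / s

theorem est_conc (hn : 4 ≤ n) (e : Fin n → ℕ) (he : Nonempty (Omega e)) (u w : Fin n)
    (T s κ : ℕ) (hT : 2 * n ^ 4 * (n ^ 2 + 2 * κ) ≤ T) (hs : 0 < s) {β : ℝ} (hβ : 0 < β) :
    prob (Fin s → Fin T → Seed1 n)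
      (fun ρ => β + n / 2 ^ κ < |est T s e u w ρ - meanExcess e u w|) ≤ n ^ 2 / (s * β ^ 2) := by
  have := seed_nonempty hn
  set G0 : Omega e := Classical.choice he with hG0
  have hst : startG e = G0.1 := by
    unfold startG
    rw [dif_pos he]
  set f : (Fin T → Seed1 n) → ℝ := fun σ => (excess (runChain T (startG e) σ) u w : ℝ) with hf
  have hμ : ex (Fin T → Seed1 n) f =
      ∑ G : Omega e, (switchChain e ^ T) G0 G * (excess G.1 u w : ℝ) := by
    rw [hf, hst]
    exact ex_run hn (fun G => (excess G u w : ℝ)) T G0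
  have happ := expect_approx hn e G0 u w κ T hT
  rw [← hμ] at happ
  have hf0 : ∀ σ, 0 ≤ f σ := fun σ => Nat.cast_nonneg _
  have hfn : ∀ σ, f σ ≤ n := fun σ => by
    show (excess (runChain T (startG e) σ) u w : ℝ) ≤ n
    exact_mod_cast excess_le _ u w
  have hμ0 : 0 ≤ ex (Fin T → Seed1 n) f := ex_nonneg hf0
  have hμn : ex (Fin T → Seed1 n) f ≤ n := by
    have h1 := ex_mono hfn
    rwa [ex_const] at h1
  have hc : ∀ σ, |f σ - ex (Fin T → Seed1 n) f| ≤ n := by
    intro σ
    rw [abs_le]
    constructor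
    · linarith [hf0 σ]
    · linarith [hfn σ]
  refine le_trans (prob_mono ?_) (cheb f n hc s hs hβ)
  intro ρ hρ
  have h1 : est T s e u w ρ = (∑ j, f (ρ j)) / s := rfl
  rw [h1] at hρ
  have h2 : |(∑ j, f (ρ j)) / s - meanExcess e u w| ≤
      |(∑ j, f (ρ j)) / s - ex (Fin T → Seed1 n) f| +
        |ex (Fin T → Seed1 n) f - meanExcess e u w| := abs_sub_le _ _ _
  linarith

end Vale.Agent.P308
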