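import Vale.Agent.P308.Gadget

/-!
# Size and non-bipartiteness of the gadget graph
-/

namespace Vale.Agent.P308

open Finset

variable {n : ℕ} {d : Fin n → ℕ}

theorem card_vertices (d : Fin n → ℕ) :
    Fintype.card (Port n ⊕ Dummy d) = n * (n - 1) + ∑ v, (n - 1 - d v) := by
  rw [Fintype.card_sum, Fintype.card_sigma]
  congr 1
  · rw [Fintype.card_subtype]
    have : (univ.filter (fun p : Fin n × Fin n => p.1 ≠ p.2)) = (univ : Finset (Fin n)).offDiag := by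
      ext p
      simp
    rw [this, Finset.offDiag_card, Finset.card_univ, Fintype.card_fin, Nat.mul_sub, mul_one]
  · simp

theorem fin2_four : ∀ x1 x2 x3 x4 : Fin 2, x1 ≠ x3 → x2 ≠ x4 → x3 ≠ x4 → x1 ≠ x2 := by decide

theorem fin2_three : ∀ x1 x2 x3 : Fin 2, x1 ≠ x2 → x2 ≠ x3 → x1 ≠ x3 → False := by decide

theorem not_bipartite (a b c : Fin n) (hab : a ≠ b) (hbc : b ≠ c) (hac : a ≠ c)
    (ha : d a < n - 1) (hb : d b < n - 1) (hc : d c < n - 1) : ¬ (gadget d).Colorable 2 := by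
  rintro ⟨C⟩
  have key : ∀ (u v : Fin n) (h : u ≠ v) (hu : d u < n - 1) (hv : d v < n - 1),
      C (Sum.inr ⟨u, ⟨0, by omega⟩⟩) ≠ C (Sum.inr ⟨v, ⟨0, by omega⟩⟩) := by
    intro u v h hu hv
    have h1 : C (Sum.inr ⟨u, ⟨0, by omega⟩⟩) ≠ C (Sum.inl ⟨(u, v), h⟩) :=
      C.valid (show (gadget d).Adj (Sum.inr ⟨u, ⟨0, by omega⟩⟩) (Sum.inl ⟨(u, v), h⟩) from rfl)
    have h2 : C (Sum.inr ⟨v, ⟨0, by omega⟩⟩) ≠ C (Sum.inl ⟨(v, u), h.symm⟩) :=
      C.valid (show (gadget d).Adj (Sum.inr ⟨v, ⟨0, by omega⟩⟩) (Sum.inl ⟨(v, u), h.symm⟩) from rfl)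
    have h3 : C (Sum.inl ⟨(u, v), h⟩) ≠ C (Sum.inl ⟨(v, u), h.symm⟩) :=
      C.valid (show (gadget d).Adj (Sum.inl ⟨(u, v), h⟩) (Sum.inl ⟨(v, u), h.symm⟩) from rfl)
    exact fin2_four _ _ _ _ h1 h2 h3
  have k1 := key a b hab ha hb
  have k2 := key b c hbc hb hc
  have k3 := key a c hac ha hc
  exact fin2_three _ _ _ k1 k2 k3

end Vale.Agent.P308
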