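import Vale.Agent.P308.HingeCount

/-!
# A polynomially bounded telescoping from any degree vector to one with a unique realization
-/

namespace Vale.Agent.P308

open Finset Vale.Agent.P335

variable {n : ℕ}

theorem exists_alt {d : Fin n → ℕ} (G G' : Omega d) (hne : G' ≠ G) :
    ∃ a b c e, ChainValid G.1 a b c e := by
  classical
  by_contra hcon
  push Not at hcon
  let f : Omega d → ℝ := fun H => if H = G then 1 else 0
  have hf : ∀ (H : Omega d) (t : Fin 4 ↪ Fin n), f (stepO H t) = f H := by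
    intro H t
    by_cases hv : H.1.Adj (t 0) (t 1) ∧ H.1.Adj (t 2) (t 3) ∧ ¬ H.1.Adj (t 0) (t 2) ∧
        ¬ H.1.Adj (t 1) (t 3)
    · have hV := chain_valid_of_emb t hv
      have e1 : (stepO H t).1 = switchGraph H.1 (t 0) (t 1) (t 2) (t 3) := chain_step_pos hv
      have h1 : H ≠ G := by
        rintro rfl
        exact hcon _ _ _ _ hV
      have h2 : stepO H t ≠ G := by
        intro h
        have h3 := hV.switch
        rw [← e1, h] at h3
        exact hcon _ _ _ _ h3
      simp [f, h1, h2]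
    · have : stepO H t = H := Subtype.ext (chain_step_neg hv)
      rw [this]
  have h := graph_connected f hf G G'
  simp [f, hne] at h

theorem deg_le (d : Fin n → ℕ) (G : Omega d) (v : Fin n) : d v ≤ n := by
  have h1 : d v = ∑ w, adjN G.1 v w := by
    rw [← split_degree]; exact (G.2 v).symm
  rw [h1]
  calc ∑ w, adjN G.1 v w ≤ ∑ _w : Fin n, 1 := Finset.sum_le_sum (fun w _ => gc_adjN_le _ _ _)
    _ = n := by simp

theorem excess_le_deg {d : Fin n → ℕ} (G : Omega d) (u w : Fin n) : excess G.1 u w ≤ d u := by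
  classical
  have h1 : d u = ∑ x, adjN G.1 u x := by
    rw [← split_degree]; exact (G.2 u).symm
  rw [h1]
  unfold excess adjN
  rw [Finset.card_filter]
  apply Finset.sum_le_sum
  intro x _
  by_cases h : G.1.Adj u x <;> simp [h]
  split_ifs <;> simp

theorem exists_good_pair {d : Fin n → ℕ} (G0 G1 : Omega d) (hne : G1 ≠ G0) :
    ∃ u w, u ≠ w ∧ d w ≤ d u ∧
      Fintype.card (Omega d) ≤ n ^ 2 * ∑ G : Omega d, excess G.1 w u := by
  classical
  set P : Finset (Fin n × Fin n) := univ.filter (fun p => p.1 ≠ p.2 ∧ d p.2 ≤ d p.1) with hP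
  have h1 : ∀ G : Omega d, 1 ≤ ∑ p ∈ P, excess G.1 p.2 p.1 := by
    intro G
    have hG : ∃ G' : Omega d, G' ≠ G := by
      by_cases h : G0 = G
      · exact ⟨G1, h ▸ hne⟩
      · exact ⟨G0, h⟩
    obtain ⟨G', hG'⟩ := hG
    obtain ⟨a, b, c, e, hV⟩ := exists_alt G G' hG'
    have x1 : 1 ≤ excess G.1 a e := excess_pos hV.e1 (fun h => hV.n2 h.symm) hV.bd
    have x2 : 1 ≤ excess G.1 e a := excess_pos hV.e2.symm hV.n1 hV.ac.symm
    rcases le_total (d e) (d a) with hle | hle
    · have hm : ((a, e) : Fin n × Fin n) ∈ P := by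
        rw [hP]; simp [hV.ad, hle]
      exact x2.trans (Finset.single_le_sum (f := fun p : Fin n × Fin n => excess G.1 p.2 p.1)
        (fun _ _ => Nat.zero_le _) hm)
    · have hm : ((e, a) : Fin n × Fin n) ∈ P := by
        rw [hP]; simp [hV.ad.symm, hle]
      exact x1.trans (Finset.single_le_sum (f := fun p : Fin n × Fin n => excess G.1 p.2 p.1)
        (fun _ _ => Nat.zero_le _) hm)
  have h2 : Fintype.card (Omega d) ≤ ∑ p ∈ P, ∑ G : Omega d, excess G.1 p.2 p.1 := by
    rw [Finset.sum_comm]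
    calc Fintype.card (Omega d) = ∑ _G : Omega d, 1 := by simp
      _ ≤ _ := Finset.sum_le_sum (fun G _ => h1 G)
  have hcard : 0 < Fintype.card (Omega d) := Fintype.card_pos_iff.2 ⟨G0⟩
  have hPne : P.Nonempty := by
    by_contra h
    rw [Finset.not_nonempty_iff_eq_empty] at h
    rw [h] at h2
    simp at h2
    omega
  have hPcard : P.card ≤ n ^ 2 := by
    calc P.card ≤ (univ : Finset (Fin n × Fin n)).card := Finset.card_filter_le _ _
      _ = n ^ 2 := by simp [sq]
  by_contra hcon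
  push Not at hcon
  have h3 : ∀ p ∈ P, n ^ 2 * ∑ G : Omega d, excess G.1 p.2 p.1 < Fintype.card (Omega d) := by
    intro p hp
    have hp' := (Finset.mem_filter.1 hp).2
    exact hcon p.1 p.2 hp'.1 hp'.2
  have h4 := Finset.sum_lt_sum_of_nonempty hPne h3
  rw [← Finset.mul_sum, Finset.sum_const, smul_eq_mul] at h4
  have h5 : n ^ 2 * Fintype.card (Omega d) ≤
      n ^ 2 * ∑ p ∈ P, ∑ G : Omega d, excess G.1 p.2 p.1 := Nat.mul_le_mul_left _ h2
  have h6 : P.card * Fintype.card (Omega d) ≤ n ^ 2 * Fintype.card (Omega d) :=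
    Nat.mul_le_mul_right _ hPcard
  omega

/-- the potential: sum of the squares of the degrees -/
def pot (d : Fin n → ℕ) : ℕ := ∑ v, d v ^ 2

theorem pot_le (d : Fin n → ℕ) (G : Omega d) : pot d ≤ n ^ 3 := by
  unfold pot
  calc ∑ v, d v ^ 2 ≤ ∑ _v : Fin n, n ^ 2 :=
        Finset.sum_le_sum (fun v _ => Nat.pow_le_pow_left (deg_le d G v) 2)
    _ = n ^ 3 := by simp; ring

theorem pot_shift {d : Fin n → ℕ} {u w : Fin n} (huw : u ≠ w) (hw : 1 ≤ d w) :
    pot (shift d u w) + 2 * d w = pot d + 2 * d u + 2 := by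
  have hp : ∀ v, shift d u w v ^ 2 + (if v = w then 2 * d w else 0) =
      d v ^ 2 + (if v = u then 2 * d u + 1 else 0) + (if v = w then 1 else 0) := by
    intro v
    unfold shift
    by_cases c1 : v = u
    · subst c1
      simp [huw]
      ring
    · by_cases c2 : v = w
      · subst c2
        simp [c1]
        obtain ⟨m, hm⟩ : ∃ m, d v = m + 1 := ⟨d v - 1, by omega⟩
        rw [hm]
        simp
        ring
      · simp [c1, c2]
  have hs := Finset.sum_congr rfl (fun v (_ : v ∈ (univ : Finset (Fin n))) => hp v)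
  simp only [Finset.sum_add_distrib, Finset.sum_ite_eq', mem_univ, if_true] at hs
  unfold pot
  omega

/-- one step of the telescoping: `d' = d + e_u - e_w` -/
def Step (d d' : Fin n → ℕ) (u w : Fin n) : Prop :=
  u ≠ w ∧ d' = shift d u w ∧ Nonempty (Omega d) ∧ Nonempty (Omega d') ∧
    (∑ G : Omega d, excess G.1 w u = ∑ G : Omega d', excess G.1 u w) ∧
    Fintype.card (Omega d) ≤ n ^ 2 * ∑ G : Omega d, excess G.1 w u ∧
    ∀ G : Omega d', 2 ≤ excess G.1 u w

theorem exists_step {d : Fin n → ℕ} (G0 G1 : Omega d) (hne : G1 ≠ G0) :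
    ∃ u w, Step d (shift d u w) u w ∧ pot d + 2 ≤ pot (shift d u w) := by
  obtain ⟨u, w, huw, hle, hc⟩ := exists_good_pair G0 G1 hne
  have hcard : 0 < Fintype.card (Omega d) := Fintype.card_pos_iff.2 ⟨G0⟩
  have hpos : 0 < ∑ G : Omega d, excess G.1 w u := by
    by_contra h
    have : ∑ G : Omega d, excess G.1 w u = 0 := by omega
    rw [this] at hc
    omega
  obtain ⟨G, -, hG⟩ := Finset.exists_ne_zero_of_sum_ne_zero hpos.ne'
  have hw : 1 ≤ d w := by
    have := excess_le_deg G w u
    omega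
  have hid := sum_excess_shift huw hw
  have hne' : Nonempty (Omega (shift d u w)) := by
    rw [hid] at hpos
    obtain ⟨G', -, -⟩ := Finset.exists_ne_zero_of_sum_ne_zero hpos.ne'
    exact ⟨G'⟩
  refine ⟨u, w, ⟨huw, rfl, ⟨G0⟩, hne', hid, hc, ?_⟩, ?_⟩
  · intro G'
    have hb := excess_balance G' huw
    have e1 : shift d u w u = d u + 1 := by simp [shift]
    have e2 : shift d u w w = d w - 1 := by simp [shift, huw.symm]
    rw [e1, e2] at hb
    omega
  · have := pot_shift huw hw
    omega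

theorem chain_exists (v0 : Fin n) : ∀ (k : ℕ) (d : Fin n → ℕ), Nonempty (Omega d) →
    n ^ 3 - pot d ≤ k →
    ∃ (L : ℕ) (D : ℕ → Fin n → ℕ) (U W : ℕ → Fin n), L ≤ k ∧ D 0 = d ∧
      Fintype.card (Omega (D L)) = 1 ∧ ∀ i < L, Step (D i) (D (i + 1)) (U i) (W i) := by
  intro k
  induction k with
  | zero =>
    intro d ⟨G0⟩ hk
    by_cases h1 : Fintype.card (Omega d) = 1
    · exact ⟨0, fun _ => d, fun _ => v0, fun _ => v0, le_refl _, rfl, h1,
        fun i hi => absurd hi (Nat.not_lt_zero i)⟩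
    · have hcard : 0 < Fintype.card (Omega d) := Fintype.card_pos_iff.2 ⟨G0⟩
      obtain ⟨G1, hne⟩ := Fintype.exists_ne_of_one_lt_card (by omega) G0
      obtain ⟨u, w, hS, hpot⟩ := exists_step G0 G1 hne
      obtain ⟨G'⟩ := hS.2.2.2.1
      have := pot_le _ G'
      omega
  | succ k ih =>
    intro d ⟨G0⟩ hk
    by_cases h1 : Fintype.card (Omega d) = 1
    · exact ⟨0, fun _ => d, fun _ => v0, fun _ => v0, Nat.zero_le _, rfl, h1,
        fun i hi => absurd hi (Nat.not_lt_zero i)⟩
    · have hcard : 0 < Fintype.card (Omega d) := Fintype.card_pos_iff.2 ⟨G0⟩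
      obtain ⟨G1, hne⟩ := Fintype.exists_ne_of_one_lt_card (by omega) G0
      obtain ⟨u, w, hS, hpot⟩ := exists_step G0 G1 hne
      obtain ⟨G'⟩ := hS.2.2.2.1
      have hp := pot_le _ G'
      obtain ⟨L, D, U, W, hL, hD0, hDL, hst⟩ := ih (shift d u w) ⟨G'⟩ (by omega)
      refine ⟨L + 1, fun i => Nat.casesOn i d D, fun i => Nat.casesOn i u U,
        fun i => Nat.casesOn i w W, by omega, rfl, hDL, ?_⟩
      intro i hi
      cases i with
      | zero =>
        show Step d (D 0) u w
        rw [hD0]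
        exact hS
      | succ j => exact hst j (by omega)

end Vale.Agent.P308
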